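import Mathlib

namespace Vale.Agent.P346

theorem binom1 (y M p : ℕ) :
    ((y + 1) * M).choose (y * M + p) * y ^ p ≤ ((y + 1) * M).choose (y * M) := by
  induction p with
  | zero => simp
  | succ p ih =>
    refine le_trans ?_ ih
    rw [pow_succ, mul_comm (y ^ p), ← mul_assoc]
    refine Nat.mul_le_mul_right _ ?_
    have h := Nat.choose_succ_right_eq ((y + 1) * M) (y * M + p)
    have h2 : ((y + 1) * M - (y * M + p)) * y ≤ y * M + p + 1 := by
      have : (y + 1) * M - (y * M + p) ≤ M := by rw [add_mul]; omega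
      nlinarith
    refine Nat.le_of_mul_le_mul_right ?_ (Nat.succ_pos (y * M + p))
    calc ((y + 1) * M).choose (y * M + (p + 1)) * y * (y * M + p + 1)
        = (((y + 1) * M).choose (y * M + p + 1) * (y * M + p + 1)) * y := by
          rw [← add_assoc]; ring
      _ = ((y + 1) * M).choose (y * M + p) * ((((y + 1) * M) - (y * M + p)) * y) := by
          rw [h]; ring
      _ ≤ _ := Nat.mul_le_mul_left _ h2

theorem binom2 (z M q : ℕ) :
    ((z + 1) * M).choose (M + q) ≤ ((z + 1) * M).choose M * z ^ q := by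
  induction q with
  | zero => simp
  | succ q ih =>
    rw [pow_succ, ← mul_assoc]
    refine le_trans ?_ (Nat.mul_le_mul_right _ ih)
    have h := Nat.choose_succ_right_eq ((z + 1) * M) (M + q)
    have h2 : (z + 1) * M - (M + q) ≤ z * (M + q + 1) := by
      have : (z + 1) * M - (M + q) ≤ z * M := by rw [add_mul]; omega
      nlinarith
    refine Nat.le_of_mul_le_mul_right ?_ (Nat.succ_pos (M + q))
    calc ((z + 1) * M).choose (M + (q + 1)) * (M + q + 1)
        = ((z + 1) * M).choose (M + q) * ((z + 1) * M - (M + q)) := by rw [← add_assoc, h]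
      _ ≤ ((z + 1) * M).choose (M + q) * (z * (M + q + 1)) := Nat.mul_le_mul_left _ h2
      _ = _ := by rw [Nat.succ_eq_add_one]; ring

theorem binom3 {y M N : ℕ} (hy : 0 < y) (hM : 0 < M) (hN : N ≤ (y + 1) * M) (i : ℕ) :
    (N - i).choose (y * M) * y ^ i ≤ N.choose (y * M) := by
  induction i with
  | zero => simp
  | succ i ih =>
    refine le_trans ?_ ih
    rw [pow_succ, mul_comm (y ^ i), ← mul_assoc]
    refine Nat.mul_le_mul_right _ ?_
    rcases Nat.eq_zero_or_pos (N - i) with h0 | h0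
    · rw [show N - (i + 1) = 0 by omega, Nat.choose_eq_zero_of_lt (Nat.mul_pos hy hM)]
      simp
    obtain ⟨m, hm⟩ : ∃ m, N - i = m + 1 := ⟨N - i - 1, by omega⟩
    rw [show N - (i + 1) = m by omega, hm]
    have h := Nat.choose_mul_succ_eq m (y * M)
    have h2 : (m + 1 - y * M) * y ≤ m + 1 := by
      rcases le_total (m + 1) (y * M) with h3 | h3
      · rw [Nat.sub_eq_zero_of_le h3]; simp
      · obtain ⟨r, hr⟩ := Nat.exists_eq_add_of_le h3
        have : r ≤ M := by rw [add_mul] at hN; omega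
        rw [hr, Nat.add_sub_cancel_left]
        nlinarith
    refine Nat.le_of_mul_le_mul_right ?_ (Nat.succ_pos m)
    calc m.choose (y * M) * y * (m + 1) = (m.choose (y * M) * (m + 1)) * y := by ring
      _ = (m + 1).choose (y * M) * ((m + 1 - y * M) * y) := by rw [h]; ring
      _ ≤ _ := Nat.mul_le_mul_left _ h2

theorem binom4 (z M j : ℕ) (hj : j ≤ M) :
    ((z + 1) * M - j).choose (M - j) * z ^ j ≤ ((z + 1) * M).choose M := by
  induction j with
  | zero => simp
  | succ j ih =>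
    refine le_trans ?_ (ih (by omega))
    rw [pow_succ, mul_comm (z ^ j), ← mul_assoc]
    refine Nat.mul_le_mul_right _ ?_
    obtain ⟨r, hr⟩ := Nat.exists_eq_add_of_le hj
    have e1 : (z + 1) * M - (j + 1) = z * M + r := by rw [add_mul]; omega
    have e2 : (z + 1) * M - j = z * M + r + 1 := by rw [add_mul]; omega
    rw [e1, e2, show M - (j + 1) = r by omega, show M - j = r + 1 by omega]
    have h := Nat.add_one_mul_choose_eq (z * M + r) r
    have h2 : z * (r + 1) ≤ z * M + r + 1 := by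
      have : z * (r + 1) ≤ z * M := Nat.mul_le_mul_left _ (by omega)
      omega
    refine Nat.le_of_mul_le_mul_right ?_ (Nat.succ_pos r)
    calc (z * M + r).choose r * z * (r + 1) = (z * (r + 1)) * (z * M + r).choose r := by ring
      _ ≤ (z * M + r + 1) * (z * M + r).choose r := Nat.mul_le_mul_right _ h2
      _ = _ := h

theorem binom5 {N a k : ℕ} {ρ : ℝ} (hρ : 0 ≤ ρ) (hk : a + k ≤ N)
    (h : ρ * N ≤ (N : ℝ) - a - k) (i : ℕ) (hi : i ≤ k) :
    (N.choose a : ℝ) * ρ ^ i ≤ (N - i).choose a := by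
  induction i with
  | zero => simp
  | succ i ih =>
    obtain ⟨m, hm⟩ : ∃ m, N - i = m + 1 := ⟨N - i - 1, by omega⟩
    have ih' := ih (by omega)
    rw [show N - (i + 1) = m by omega]
    rw [hm] at ih'
    have h1 : (m.choose a : ℝ) * (m + 1) = (m + 1).choose a * ((m + 1 : ℝ) - a) := by
      have := Nat.choose_mul_succ_eq m a
      have h2 : a ≤ m + 1 := by omega
      have h3 := congrArg (Nat.cast : ℕ → ℝ) this
      push_cast [Nat.cast_sub h2] at h3
      exact h3
    have h3 : (m : ℝ) + 1 ≤ N := by exact_mod_cast (by omega : m + 1 ≤ N)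
    have h4 : (N : ℝ) ≤ m + 1 + k := by exact_mod_cast (by omega : N ≤ m + 1 + k)
    have h5 : ρ * (m + 1) ≤ (m + 1 : ℝ) - a := by nlinarith
    have h6 : (0 : ℝ) < m + 1 := by positivity
    rw [pow_succ, ← mul_assoc]
    refine le_of_mul_le_mul_right ?_ h6
    calc (N.choose a : ℝ) * ρ ^ i * ρ * (m + 1) ≤ ((m + 1).choose a : ℝ) * ρ * (m + 1) := by
          gcongr
      _ = ((m + 1).choose a : ℝ) * (ρ * (m + 1)) := by ring
      _ ≤ ((m + 1).choose a : ℝ) * ((m + 1 : ℝ) - a) := by gcongr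
      _ = _ := h1.symm

theorem exp_neg_le_sq {x : ℝ} (hx : 0 < x) : Real.exp (-(2 / x)) ≤ (x / (x + 1)) ^ 2 := by
  have h1 : Real.exp (-(2 / x)) = (Real.exp (1 / x))⁻¹ ^ 2 := by
    rw [← Real.exp_neg, ← Real.exp_nat_mul]; congr 1; push_cast; ring
  have h2 := Real.add_one_le_exp (1 / x)
  rw [h1]
  gcongr
  rw [show x / (x + 1) = (1 / x + 1)⁻¹ by field_simp; ring]
  exact inv_anti₀ (by positivity) h2

theorem binom6 {y M k : ℕ} (hy : 0 < y) (hM : 0 < M) (hk : k * (y + 1) ≤ M) :
    (((y + 1) * M).choose (y * M) : ℝ) * Real.exp (-(2 * k / y)) ≤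
      ((y + 1) * M - k).choose (y * M) * (y : ℝ) ^ k := by
  have hyR : (0 : ℝ) < y := by exact_mod_cast hy
  have hMR : (0 : ℝ) < M := by exact_mod_cast hM
  have hkR : (k : ℝ) * (y + 1) ≤ M := by exact_mod_cast hk
  have h := binom5 (N := (y + 1) * M) (a := y * M) (k := k) (ρ := (y : ℝ) / (y + 1) ^ 2)
    (by positivity) (by rw [add_mul]; nlinarith) (by
      push_cast
      rw [show (y : ℝ) / (y + 1) ^ 2 * ((y + 1) * M) = y * M / (y + 1) by field_simp,
        div_le_iff₀ (by positivity)]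
      nlinarith) k le_rfl
  have h2 : Real.exp (-(2 * k / y)) ≤ ((y : ℝ) / (y + 1) ^ 2) ^ k * (y : ℝ) ^ k := by
    rw [← mul_pow, show -(2 * (k : ℝ) / y) = k * (-(2 / y)) by ring, Real.exp_nat_mul]
    gcongr
    refine (exp_neg_le_sq hyR).trans (le_of_eq ?_)
    field_simp
  calc _ ≤ (((y + 1) * M).choose (y * M) : ℝ) * (((y : ℝ) / (y + 1) ^ 2) ^ k * (y : ℝ) ^ k) := by
        gcongr
    _ ≤ _ := by rw [← mul_assoc]; gcongr

theorem binom7 {z M l : ℕ} (hz : 0 < z) (hM : 0 < M) (hl : l * (z + 1) ≤ M) :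
    (((z + 1) * M).choose M : ℝ) * Real.exp (-(2 * l / z)) ≤ ((z + 1) * M - l).choose M := by
  have hzR : (1 : ℝ) ≤ z := by exact_mod_cast hz
  have hMR : (0 : ℝ) < M := by exact_mod_cast hM
  have hlR : (l : ℝ) * (z + 1) ≤ M := by exact_mod_cast hl
  have h := binom5 (N := (z + 1) * M) (a := M) (k := l) (ρ := ((z : ℝ) / (z + 1)) ^ 2)
    (by positivity) (by rw [add_mul]; nlinarith) (by
      push_cast
      rw [show ((z : ℝ) / (z + 1)) ^ 2 * ((z + 1) * M) = z ^ 2 * M / (z + 1) by field_simp,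
        div_le_iff₀ (by positivity)]
      nlinarith) l le_rfl
  have h2 : Real.exp (-(2 * l / z)) ≤ (((z : ℝ) / (z + 1)) ^ 2) ^ l := by
    rw [show -(2 * (l : ℝ) / z) = l * (-(2 / z)) by ring, Real.exp_nat_mul]
    gcongr
    exact exp_neg_le_sq (by linarith)
  calc _ ≤ (((z + 1) * M).choose M : ℝ) * (((z : ℝ) / (z + 1)) ^ 2) ^ l := by gcongr
    _ ≤ _ := h

end Vale.Agent.P346
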