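import Mathlib

namespace Vale.Agent.P346

open MvPolynomial

/-- The iterated matrix multiplication polynomial: the `(1,1)` entry of a product of `d`
generic `w × w` matrices, written as a sum over index sequences that start and end at the
first index. The variable `(s, i, j)` is the `(i, j)` entry of the `s`-th matrix. -/
noncomputable def IMM (K : Type) [Field K] (w d : ℕ) :
    MvPolynomial (Fin d × Fin w × Fin w) K :=
  ∑ v ∈ Finset.univ.filter
      (fun v : Fin (d + 1) → Fin w => (v 0).val = 0 ∧ (v (Fin.last d)).val = 0),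
    ∏ s : Fin d, X (s, v s.castSucc, v s.succ)

/-- A layered circuit of type sum, product, sum, product, sum over `K` in the variables `σ`.
There are `n0` leaves, `n1` bottom sums, `n2` lower products, `n3` middle sums,
`n4` upper products and one output sum. -/
structure Circuit (K σ : Type) where
  n0 : ℕ
  n1 : ℕ
  n2 : ℕ
  n3 : ℕ
  n4 : ℕ
  leaf : Fin n0 → σ ⊕ K
  in1 : Fin n1 → Finset (Fin n0)
  c1 : Fin n1 → Fin n0 → K
  in2 : Fin n2 → Multiset (Fin n1)
  in3 : Fin n3 → Finset (Fin n2)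
  c3 : Fin n3 → Fin n2 → K
  in4 : Fin n4 → Multiset (Fin n3)
  in5 : Finset (Fin n4)
  c5 : Fin n4 → K

namespace Circuit

variable {K σ : Type} [Field K] (G : Circuit K σ)

/-- Number of vertices. -/
def size : ℕ := G.n0 + G.n1 + G.n2 + G.n3 + G.n4 + 1

noncomputable def val0 (i : Fin G.n0) : MvPolynomial σ K := Sum.elim X C (G.leaf i)

noncomputable def val1 (g : Fin G.n1) : MvPolynomial σ K := ∑ i ∈ G.in1 g, G.c1 g i • G.val0 i

noncomputable def val2 (g : Fin G.n2) : MvPolynomial σ K := ((G.in2 g).map G.val1).prod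

noncomputable def val3 (g : Fin G.n3) : MvPolynomial σ K := ∑ i ∈ G.in3 g, G.c3 g i • G.val2 i

noncomputable def val4 (g : Fin G.n4) : MvPolynomial σ K := ((G.in4 g).map G.val3).prod

/-- The polynomial computed at the output gate. -/
noncomputable def output : MvPolynomial σ K := ∑ i ∈ G.in5, G.c5 i • G.val4 i

def deg0 (i : Fin G.n0) : ℕ := Sum.elim (fun _ => 1) (fun _ => 0) (G.leaf i)

def deg1 (g : Fin G.n1) : ℕ := (G.in1 g).sup G.deg0

def deg2 (g : Fin G.n2) : ℕ := ((G.in2 g).map G.deg1).sum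

def deg3 (g : Fin G.n3) : ℕ := (G.in3 g).sup G.deg2

def deg4 (g : Fin G.n4) : ℕ := ((G.in4 g).map G.deg3).sum

/-- Syntactic homogeneity: all inputs of each sum gate have the same formal degree. -/
def Homogeneous : Prop :=
  (∀ g, ∀ i ∈ G.in1 g, ∀ j ∈ G.in1 g, G.deg0 i = G.deg0 j) ∧
  (∀ g, ∀ i ∈ G.in3 g, ∀ j ∈ G.in3 g, G.deg2 i = G.deg2 j) ∧
  (∀ i ∈ G.in5, ∀ j ∈ G.in5, G.deg4 i = G.deg4 j)

end Circuit

end Vale.Agent.P346
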