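import Vale.Agent.P346.Main

namespace Vale.Agent.P346

theorem final_num {n y z h s L δ : ℝ} (hy : Real.exp L = y) (hL : 7000 ≤ L)
    (hh1 : L / 8 - 1 ≤ h) (hz : y / 2 ≤ z) (hn1 : y ^ 2 ≤ n)
    (hn2 : n + 1 ≤ (y + 1) ^ 2) (hδ : h / y ≤ δ) (hs0 : 0 ≤ s) {T : ℝ} (hT0 : 0 ≤ T)
    (hT : T ≤ Real.exp (-(y * L / 2) + 2 * y))
    (hc : Real.exp (-(4 * n / z) - 4 * y) / (2 * n ^ 2) ≤
      s * (y * (Real.exp (-((δ / 4 - 8 / z) * n)) + s * ((n + 1) * T)))) :
    Real.exp (y * L / 64) ≤ s := by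
  by_contra hcon
  push Not at hcon
  have hy1 : L + 1 ≤ y := by rw [← hy]; exact Real.add_one_le_exp L
  have hy0 : 0 < y := by linarith
  have hz0 : 0 < z := by linarith
  have hn0 : 0 < n := by nlinarith
  have hey : y + 1 ≤ Real.exp y := Real.add_one_le_exp y
  have hn3 : n + 1 ≤ Real.exp (2 * y) := by
    rw [two_mul, Real.exp_add]; nlinarith
  have hnz : n / z ≤ 8 * y := by
    rw [div_le_iff₀ hz0]; nlinarith
  have hκ : -((δ / 4 - 8 / z) * n) ≤ -(y * L / 32) + 65 * y := by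
    have h1 : h * y ≤ δ * n := by
      have : 0 ≤ h / y := div_nonneg (by linarith) hy0.le
      calc h * y = h / y * y ^ 2 := by field_simp
        _ ≤ δ * n := mul_le_mul hδ hn1 (by positivity) (by linarith)
    have h2 : 8 / z * n = 8 * (n / z) := by ring
    nlinarith
  have a1 : Real.exp (-(42 * y)) ≤ Real.exp (-(4 * n / z) - 4 * y) / (2 * n ^ 2) / y := by
    rw [le_div_iff₀ hy0, le_div_iff₀ (by positivity)]
    have b1 : 4 * n / z = 4 * (n / z) := by ring
    calc Real.exp (-(42 * y)) * y * (2 * n ^ 2)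
        ≤ Real.exp (-(42 * y)) * Real.exp y * (Real.exp y * Real.exp (2 * y) ^ 2) := by
          gcongr <;> linarith
      _ = Real.exp (-(36 * y)) := by
          rw [← Real.exp_nat_mul, ← Real.exp_add, ← Real.exp_add, ← Real.exp_add]
          congr 1; push_cast; ring
      _ ≤ _ := Real.exp_le_exp.2 (by linarith)
  have a2 : Real.exp (-(4 * n / z) - 4 * y) / (2 * n ^ 2) / y ≤
      s * Real.exp (-((δ / 4 - 8 / z) * n)) + s * s * ((n + 1) * T) := by
    rw [div_le_iff₀ hy0]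
    refine hc.trans (le_of_eq ?_)
    ring
  have a3 : s * Real.exp (-((δ / 4 - 8 / z) * n)) ≤ Real.exp (-(y * L / 64) + 65 * y) := by
    calc _ ≤ Real.exp (y * L / 64) * Real.exp (-(y * L / 32) + 65 * y) := by gcongr
      _ = _ := by rw [← Real.exp_add]; congr 1; ring
  have a4 : s * s * ((n + 1) * T) ≤ Real.exp (-(y * L / 64) + 65 * y) := by
    calc _ ≤ Real.exp (y * L / 64) * Real.exp (y * L / 64) *
          (Real.exp (2 * y) * Real.exp (-(y * L / 2) + 2 * y)) := by gcongr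
      _ = Real.exp (y * L / 32 - y * L / 2 + 4 * y) := by
          rw [← Real.exp_add, ← Real.exp_add, ← Real.exp_add]; congr 1; ring
      _ ≤ _ := Real.exp_le_exp.2 (by nlinarith)
  have a5 : Real.exp (-(42 * y)) ≤ Real.exp (-(y * L / 64) + 66 * y) := by
    calc _ ≤ 2 * Real.exp (-(y * L / 64) + 65 * y) := by linarith
      _ ≤ Real.exp y * Real.exp (-(y * L / 64) + 65 * y) := by gcongr; linarith
      _ = _ := by rw [← Real.exp_add]; congr 1; ring
  have a6 := Real.exp_le_exp.1 a5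
  nlinarith

theorem aux_a {y h L δ e : ℝ} (hexp : Real.exp L = y) (hh1 : h ≤ L / 8) (hpos : 0 < h)
    (hδ0 : 0 ≤ δ) (hδ2 : δ * y ≤ 2 * h) (he1 : 1 ≤ e) (hey : e ≤ y) :
    Real.exp (e * δ / 2) ≤ 2 * e := by
  have hy0 : 0 < y := by linarith
  by_cases hcase : 2 * e * h ≤ y
  · have h1 : e * δ / 2 ≤ 1 / 2 := by
      have : e * δ * y ≤ 1 * y := by nlinarith
      have := le_of_mul_le_mul_right this hy0
      linarith
    have h2 : Real.exp (1 / 2) ≤ 2 := by
      have := Real.exp_one_lt_d9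
      have e3 : Real.exp 1 = Real.exp (1 / 2) * Real.exp (1 / 2) := by
        rw [← Real.exp_add]; norm_num
      nlinarith [Real.exp_pos (1 / 2)]
    calc _ ≤ Real.exp (1 / 2) := Real.exp_le_exp.2 h1
      _ ≤ _ := by linarith
  · push Not at hcase
    have h1 : e * δ / 2 ≤ h := by nlinarith
    have h2 : Real.exp h * Real.exp h ≤ y := by
      rw [← Real.exp_add, ← hexp]; exact Real.exp_le_exp.2 (by linarith)
    have h3 := Real.add_one_le_exp h
    have h4 : Real.exp h * h ≤ 2 * e * h := by nlinarith [Real.exp_pos h]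
    calc _ ≤ Real.exp h := Real.exp_le_exp.2 h1
      _ ≤ _ := le_of_mul_le_mul_right h4 hpos

theorem aux_b {y h L L' : ℝ} (hL : 7000 ≤ L) (hh1 : h ≤ L / 8)
    (hδ2 : (L - L') * y ≤ 2 * h) (hδ3 : L - L' ≤ 1) :
    4 * Real.exp (-L' / 2) * Real.exp (y * (L - L') / 2) ≤ 1 := by
  rw [mul_assoc, ← Real.exp_add]
  have h1 : (4 : ℝ) ≤ Real.exp 3 := by have := Real.add_one_le_exp (3 : ℝ); linarith
  calc _ ≤ Real.exp 3 * Real.exp (-L' / 2 + y * (L - L') / 2) := by gcongr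
    _ ≤ 1 := by
      rw [← Real.exp_add]
      exact Real.exp_le_one_iff.2 (by nlinarith)

theorem aux_c {n y L : ℝ} (hexp : Real.exp L = y) (hL : 7000 ≤ L) (hn1 : y ^ 2 ≤ n)
    (hn2 : n + 1 ≤ (y + 1) ^ 2) : n ^ (1 / 512 * Real.sqrt n) ≤ Real.exp (y * L / 64) := by
  have hLy : L + 1 ≤ y := by rw [← hexp]; exact Real.add_one_le_exp L
  have hn0 : (0 : ℝ) < n := by nlinarith
  rw [Real.rpow_def_of_pos hn0]
  apply Real.exp_le_exp.2
  have s1 : Real.sqrt n ≤ 2 * y := by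
    rw [Real.sqrt_le_iff]; constructor <;> nlinarith
  have s2 : Real.log n ≤ 4 * L := by
    rw [Real.log_le_iff_le_exp hn0, show 4 * L = ((4 : ℕ) : ℝ) * L by norm_num, Real.exp_nat_mul,
      hexp]
    nlinarith [sq_nonneg (y ^ 2 - y - 1)]
  have s3 : 0 ≤ Real.sqrt n := Real.sqrt_nonneg _
  calc Real.log n * (1 / 512 * Real.sqrt n) ≤ (4 * L) * (1 / 512 * (2 * y)) := by
        gcongr
    _ = _ := by ring

theorem lower_bound {K : Type} [Field K] [CharZero K] {n : ℕ}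
    (hn : ⌈Real.exp 7000⌉₊ ^ 2 ≤ n) (G : Circuit K (Fin n × Fin n × Fin n))
    (hG : G.Homogeneous) (hout : G.output = IMM K n n) :
    (n : ℝ) ^ (1 / 512 * Real.sqrt n) ≤ G.size := by
  set y := Nat.sqrt n with hyd
  have hy1 : ⌈Real.exp 7000⌉₊ ≤ y := Nat.le_sqrt'.2 hn
  have hy2 : Real.exp 7000 ≤ y := Nat.ceil_le.1 hy1
  have hy0 : (0 : ℝ) < y := lt_of_lt_of_le (Real.exp_pos _) hy2
  set L := Real.log y with hLd
  have hL : 7000 ≤ L := (Real.le_log_iff_exp_le hy0).2 hy2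
  have hexp : Real.exp L = y := Real.exp_log hy0
  have hLy : L + 1 ≤ y := by rw [← hexp]; exact Real.add_one_le_exp L
  set h := ⌊L / 8⌋₊ with hhd
  have hh1 : (h : ℝ) ≤ L / 8 := Nat.floor_le (by linarith)
  have hh2 : L / 8 - 1 ≤ h := by have := Nat.lt_floor_add_one (L / 8); linarith
  have hhy : h ≤ y := by exact_mod_cast (by linarith : (h : ℝ) ≤ y)
  set z := y - h with hzd
  have hzR : (z : ℝ) = y - h := by rw [hzd, Nat.cast_sub hhy]
  have hz0 : (0 : ℝ) < z := by linarith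
  have hz2 : 2 ≤ z := by exact_mod_cast (by linarith : (2 : ℝ) ≤ z)
  have hn1 : (y : ℝ) ^ 2 ≤ n := by exact_mod_cast Nat.sqrt_le' n
  have hn2 : (n : ℝ) + 1 ≤ (y + 1) ^ 2 := by exact_mod_cast Nat.succ_le_succ_sqrt' n
  have hw : 4 * y ≤ n := by exact_mod_cast (by nlinarith : 4 * (y : ℝ) ≤ n)
  set L' := Real.log z with hL'd
  have hδ1 : (h : ℝ) / y ≤ L - L' := by
    have := Real.log_le_sub_one_of_pos (div_pos hz0 hy0)
    rw [Real.log_div hz0.ne' hy0.ne', hzR] at this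
    have e : ((y : ℝ) - h) / y - 1 = -(h / y) := by field_simp; ring
    rw [hL'd, hzR]
    linarith
  have hδ2 : (L - L') * y ≤ 2 * h := by
    have := Real.log_le_sub_one_of_pos (div_pos hy0 hz0)
    rw [Real.log_div hy0.ne' hz0.ne'] at this
    have e : (y : ℝ) / z - 1 = h / z := by field_simp; linarith
    have e2 : (h : ℝ) / z * y ≤ 2 * h := by
      rw [div_mul_eq_mul_div, div_le_iff₀ hz0]
      have : (0 : ℝ) ≤ h := Nat.cast_nonneg _
      nlinarith
    calc (L - L') * y ≤ (h / z) * y := by gcongr; linarith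
      _ ≤ _ := e2
  have hδ0 : 0 ≤ L - L' := le_trans (by positivity) hδ1
  have hδ3 : L - L' ≤ 1 := by nlinarith
  have hpos : (0 : ℝ) < h := by linarith
  have hc := core (τ := y) hz2 (Nat.sub_le _ _) hw (by
      intro e he1 hey
      rw [← hLd, ← hL'd]
      exact aux_a hexp hh1 hpos hδ0 hδ2 (by exact_mod_cast he1) (by exact_mod_cast hey))
    (by
      rw [← hLd, ← hL'd]
      exact aux_b hL hh1 hδ2 hδ3) G hG hout
  rw [← hLd, ← hL'd] at hc
  have hT : (2 * Real.exp (-L' / 2)) ^ y ≤ Real.exp (-(y * L / 2) + 2 * y) := by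
    have h1 : 2 * Real.exp (-L' / 2) ≤ Real.exp (-(L / 2) + 2) := by
      have h2 : (2 : ℝ) ≤ Real.exp 1 := by have := Real.add_one_le_exp (1 : ℝ); linarith
      calc _ ≤ Real.exp 1 * Real.exp (-L' / 2) := by gcongr
        _ ≤ _ := by rw [← Real.exp_add]; exact Real.exp_le_exp.2 (by linarith)
    calc _ ≤ Real.exp (-(L / 2) + 2) ^ y := by gcongr
      _ = _ := by rw [← Real.exp_nat_mul]; congr 1; ring
  have hf := final_num hexp hL hh2 (by linarith) hn1 hn2 hδ1 (Nat.cast_nonneg _)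
    (by positivity) hT hc
  exact (aux_c hexp hL hn1 hn2).trans hf

end Vale.Agent.P346
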