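import Vale.Agent.P346.Transfer

namespace Vale.Agent.P346

open Finset

def PQ (y z : ℕ) : ℕ → ℕ × ℕ
  | 0 => (0, 0)
  | s + 1 => if y ^ (PQ y z s).1 ≤ z ^ (PQ y z s).2 then ((PQ y z s).1 + 1, (PQ y z s).2)
      else ((PQ y z s).1, (PQ y z s).2 + 1)

abbrev tY (y z s : ℕ) : Prop := y ^ (PQ y z s).1 ≤ z ^ (PQ y z s).2

theorem PQ_pos {y z s : ℕ} (h : tY y z s) : PQ y z (s + 1) = ((PQ y z s).1 + 1, (PQ y z s).2) := by
  rw [PQ, if_pos h]

theorem PQ_neg {y z s : ℕ} (h : ¬ tY y z s) :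
    PQ y z (s + 1) = ((PQ y z s).1, (PQ y z s).2 + 1) := by
  rw [PQ, if_neg h]

theorem PQ_inv {y z : ℕ} (hz : 1 ≤ z) (hzy : z ≤ y) (s : ℕ) :
    y ^ (PQ y z s).1 ≤ y * z ^ (PQ y z s).2 ∧ z ^ (PQ y z s).2 ≤ y * y ^ (PQ y z s).1 := by
  have hy : 1 ≤ y := hz.trans hzy
  induction s with
  | zero => simp [PQ, hy]
  | succ s ih =>
    by_cases h : tY y z s
    · rw [PQ_pos h]
      simp only [pow_succ]
      constructor
      · rw [mul_comm]; exact Nat.mul_le_mul_left _ h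
      · exact ih.2.trans (Nat.mul_le_mul_left _ (Nat.le_mul_of_pos_right _ hy))
    · rw [PQ_neg h]
      simp only [pow_succ]
      have h' := (not_le.1 h).le
      constructor
      · exact ih.1.trans (Nat.mul_le_mul_left _ (Nat.le_mul_of_pos_right _ hz))
      · rw [mul_comm]; exact Nat.mul_le_mul hzy h'

theorem PQ_card (y z d : ℕ) :
    (univ.filter (fun s : Fin d => tY y z s)).card = (PQ y z d).1 ∧
    (univ.filter (fun s : Fin d => ¬ tY y z s)).card = (PQ y z d).2 := by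
  simp only [Finset.card_filter]
  rw [Fin.sum_univ_eq_sum_range (fun s => if tY y z s then 1 else 0),
    Fin.sum_univ_eq_sum_range (fun s => if ¬ tY y z s then 1 else 0)]
  induction d with
  | zero => simp [PQ]
  | succ d ih =>
    rw [Finset.sum_range_succ, Finset.sum_range_succ, ih.1, ih.2]
    by_cases h : tY y z d
    · rw [PQ_pos h]; simp [h]
    · rw [PQ_neg h]; simp [h]

theorem PQ_sum (y z d : ℕ) : (PQ y z d).1 + (PQ y z d).2 = d := by
  induction d with
  | zero => simp [PQ]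
  | succ d ih =>
    by_cases h : tY y z d
    · rw [PQ_pos h]; simp; omega
    · rw [PQ_neg h]; simp; omega

noncomputable def cY (y z s : ℕ) : ℝ := if tY y z s then (y : ℝ)⁻¹ else 1

noncomputable def cZ (y z s : ℕ) : ℝ := if tY y z s then 1 else (z : ℝ)⁻¹

theorem cY_nonneg (y z s : ℕ) : 0 ≤ cY y z s := by unfold cY; split_ifs <;> positivity

theorem cZ_nonneg (y z s : ℕ) : 0 ≤ cZ y z s := by unfold cZ; split_ifs <;> positivity

theorem quad_bound {W : Type} [Fintype W] [DecidableEq W] {y z : ℕ} (hz : 1 ≤ z) (hzy : z ≤ y)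
    (hw : 4 * y ≤ Fintype.card W) (d : ℕ) (o : W) :
    ∑ p : Fin (d + 1) → W × W × W × W, (if p 0 = (o, o, o, o) ∧ p (Fin.last d) = (o, o, o, o) then
      ∏ t : Fin d, om (cY y z t) (cZ y z t) (p t.castSucc) (p t.succ) else 0) ≤
      2 * ((Fintype.card W : ℝ) ^ 2 + 4 * y * Fintype.card W) ^ d / (y : ℝ) ^ (PQ y z d).1 := by
  have hy : 1 ≤ y := hz.trans hzy
  have hyR : (1 : ℝ) ≤ y := by exact_mod_cast hy
  have hzR : (1 : ℝ) ≤ z := by exact_mod_cast hz
  have hzyR : (z : ℝ) ≤ y := by exact_mod_cast hzy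
  have hwR : 4 * (y : ℝ) ≤ Fintype.card W := by exact_mod_cast hw
  set Λ : ℝ := (Fintype.card W : ℝ) ^ 2 + 4 * y * Fintype.card W with hΛ
  have hΛ0 : 0 < Λ := by
    have : (0 : ℝ) < Fintype.card W := by linarith
    positivity
  have key := transfer (fun s => om (W := W) (cY y z s) (cZ y z s))
    (fun s q => (Λ ^ s)⁻¹ * pot ((y : ℝ) ^ (PQ y z s).1) ((z : ℝ) ^ (PQ y z s).2) q)
    (fun s q q' => om_nonneg (cY_nonneg _ _ _) (cZ_nonneg _ _ _) _ _) (by
      intro s q
      have hinv := PQ_inv hz hzy (s + 1)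
      have i1 : (y : ℝ) ^ (PQ y z (s + 1)).1 ≤ y * z ^ (PQ y z (s + 1)).2 := by
        exact_mod_cast hinv.1
      have i2 : (z : ℝ) ^ (PQ y z (s + 1)).2 ≤ y * y ^ (PQ y z (s + 1)).1 := by
        exact_mod_cast hinv.2
      have p1 : (0 : ℝ) < (y : ℝ) ^ (PQ y z (s + 1)).1 := by positivity
      have p2 : (0 : ℝ) < (z : ℝ) ^ (PQ y z (s + 1)).2 := by positivity
      have p3 : (0 : ℝ) < (y : ℝ) ^ (PQ y z s).1 := by positivity
      have p4 : (0 : ℝ) < (z : ℝ) ^ (PQ y z s).2 := by positivity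
      have := super (W := W) (cY := cY y z s) (cZ := cZ y z s) (u := (y : ℝ) ^ (PQ y z s).1)
        (v := (z : ℝ) ^ (PQ y z s).2) (u' := (y : ℝ) ^ (PQ y z (s + 1)).1)
        (v' := (z : ℝ) ^ (PQ y z (s + 1)).2) (y := y) (cY_nonneg _ _ _) (cZ_nonneg _ _ _)
        p3.le p4.le (by linarith) (by
          unfold cY
          split_ifs with h
          · rw [PQ_pos h, pow_succ]; field_simp
          · rw [PQ_neg h, one_mul]) (by
          unfold cZ
          split_ifs with h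
          · rw [PQ_pos h, one_mul]
          · rw [PQ_neg h, pow_succ]; field_simp) (by nlinarith) (by nlinarith) (by
          by_cases h : tY y z s
          · rw [PQ_pos h, pow_succ]; nlinarith
          · rw [PQ_neg h, pow_succ]; nlinarith) hwR q
      rw [← hΛ] at this
      calc _ = (Λ ^ (s + 1))⁻¹ * ∑ x, om (cY y z s) (cZ y z s) q x *
            pot ((y : ℝ) ^ (PQ y z (s + 1)).1) ((z : ℝ) ^ (PQ y z (s + 1)).2) x := by
            rw [Finset.mul_sum]
            exact Finset.sum_congr rfl fun x _ => by ring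
        _ ≤ (Λ ^ (s + 1))⁻¹ * (Λ * pot ((y : ℝ) ^ (PQ y z s).1) ((z : ℝ) ^ (PQ y z s).2) q) := by
            gcongr
        _ = _ := by rw [pow_succ]; field_simp) d 0 (o, o, o, o)
  simp only [zero_add, pow_zero, inv_one, one_mul] at key
  have e0 : pot ((y : ℝ) ^ (PQ y z 0).1) ((z : ℝ) ^ (PQ y z 0).2) (o, o, o, o) = 4 := by
    simp [pot, PQ]; norm_num
  rw [e0] at key
  have p1 : (0 : ℝ) < (y : ℝ) ^ (PQ y z d).1 := by positivity
  have p2 : (0 : ℝ) < (z : ℝ) ^ (PQ y z d).2 := by positivity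
  have p3 : 0 < Λ ^ d := by positivity
  rw [le_div_iff₀ p1]
  have : (∑ p : Fin (d + 1) → W × W × W × W,
      (if p 0 = (o, o, o, o) ∧ p (Fin.last d) = (o, o, o, o) then
      ∏ t : Fin d, om (cY y z t) (cZ y z t) (p t.castSucc) (p t.succ) else 0)) *
      ((Λ ^ d)⁻¹ * (2 * (y : ℝ) ^ (PQ y z d).1)) ≤ 4 := by
    refine le_trans ?_ key
    rw [Finset.sum_mul]
    refine Finset.sum_le_sum fun p _ => ?_
    have hp : 0 ≤ ∏ t : Fin d, om (cY y z t) (cZ y z t) (p t.castSucc) (p t.succ) :=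
      Finset.prod_nonneg fun t _ => om_nonneg (cY_nonneg _ _ _) (cZ_nonneg _ _ _) _ _
    by_cases h0 : p 0 = (o, o, o, o)
    · by_cases h1 : p (Fin.last d) = (o, o, o, o)
      · rw [if_pos ⟨h0, h1⟩, if_pos h0, h1]
        gcongr
        simp only [pot, and_self, if_true]
        linarith
      · rw [if_neg (fun h => h1 h.2), if_pos h0, zero_mul]
        refine mul_nonneg hp (mul_nonneg (by positivity) ?_)
        unfold pot
        split_ifs <;> positivity
    · rw [if_neg (fun h => h0 h.1), if_neg h0, zero_mul]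
  rw [← mul_assoc, mul_comm _ (Λ ^ d)⁻¹, mul_assoc, inv_mul_le_iff₀ p3] at this
  linarith

end Vale.Agent.P346
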