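import Vale.Agent.P346.Rank

namespace Vale.Agent.P346

open MvPolynomial Finset

variable {Y Z : Type} [Fintype Y] [DecidableEq Y] [Fintype Z] [DecidableEq Z]

def mid (Y Z : Type) [Fintype Y] [Fintype Z] (p q : ℕ) : Finset (Finset Y × Finset Z) :=
  powersetCard p univ ×ˢ powersetCard q univ

omit [DecidableEq Y] [DecidableEq Z] in
theorem mem_mid {p q : ℕ} {S : Finset Y × Finset Z} :
    S ∈ mid Y Z p q ↔ S.1.card = p ∧ S.2.card = q := by
  simp [mid, mem_powersetCard]

omit [DecidableEq Y] [DecidableEq Z] in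
theorem card_mid (p q : ℕ) :
    (mid Y Z p q).card = (Fintype.card Y).choose p * (Fintype.card Z).choose q := by
  simp [mid, card_powersetCard]

noncomputable def ind (S : Finset Y × Finset Z) : Y ⊕ Z →₀ ℕ :=
  Finsupp.equivFunOnFinite.symm
    (Sum.elim (fun y => if y ∈ S.1 then 1 else 0) (fun z => if z ∈ S.2 then 1 else 0))

@[simp] theorem ind_inl (S : Finset Y × Finset Z) (y : Y) :
    ind S (Sum.inl y) = if y ∈ S.1 then 1 else 0 := rfl

@[simp] theorem ind_inr (S : Finset Y × Finset Z) (z : Z) :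
    ind S (Sum.inr z) = if z ∈ S.2 then 1 else 0 := rfl

theorem ind_injective : Function.Injective (ind : Finset Y × Finset Z → _) := by
  intro S T h
  ext x
  · have := DFunLike.congr_fun h (Sum.inl x)
    simp only [ind_inl] at this
    by_cases h1 : x ∈ S.1 <;> by_cases h2 : x ∈ T.1 <;> simp_all
  · have := DFunLike.congr_fun h (Sum.inr x)
    simp only [ind_inr] at this
    by_cases h1 : x ∈ S.2 <;> by_cases h2 : x ∈ T.2 <;> simp_all

def wt (Y Z : Type) : Y ⊕ Z → ℕ × ℕ := Sum.elim (fun _ => (1, 0)) (fun _ => (0, 1))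

omit [DecidableEq Y] [DecidableEq Z] in
theorem weight_eq (m : Y ⊕ Z →₀ ℕ) :
    Finsupp.weight (wt Y Z) m = (∑ y, m (Sum.inl y), ∑ z, m (Sum.inr z)) := by
  rw [Finsupp.weight_apply, Finsupp.sum_fintype _ _ (by simp), Fintype.sum_sum_type]
  ext <;> simp [wt, Prod.fst_sum, Prod.snd_sum]

theorem weight_ind (S : Finset Y × Finset Z) :
    Finsupp.weight (wt Y Z) (ind S) = (S.1.card, S.2.card) := by
  rw [weight_eq]
  simp

theorem exists_ind_of_le {m : Y ⊕ Z →₀ ℕ} {R : Finset Y × Finset Z} (h : m ≤ ind R) :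
    ∃ S, m = ind S := by
  refine ⟨(univ.filter (fun y => m (Sum.inl y) = 1), univ.filter (fun z => m (Sum.inr z) = 1)), ?_⟩
  ext v
  have hv := h v
  rcases v with y | z
  · simp only [ind_inl] at hv ⊢
    simp only [mem_filter, mem_univ, true_and]
    split_ifs at hv ⊢ <;> omega
  · simp only [ind_inr] at hv ⊢
    simp only [mem_filter, mem_univ, true_and]
    split_ifs at hv ⊢ <;> omega

variable {K : Type} [Field K]

theorem coeff_mul_mid {F : MvPolynomial (Y ⊕ Z) K} {p q : ℕ}
    (hF : IsWeightedHomogeneous (wt Y Z) F (p, q)) (h : MvPolynomial (Y ⊕ Z) K)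
    (R : Finset Y × Finset Z) :
    coeff (ind R) (F * h) =
      ∑ S ∈ mid Y Z p q, coeff (ind S) F * coeff (ind R) (monomial (ind S) 1 * h) := by
  classical
  set G : (Y ⊕ Z →₀ ℕ) → K := fun m => coeff m F * coeff (ind R) (monomial m 1 * h) with hG
  have h1 : coeff (ind R) (F * h) = ∑ m ∈ F.support, G m := by
    conv_lhs => rw [F.as_sum, Finset.sum_mul, coeff_sum]
    refine Finset.sum_congr rfl fun m _ => ?_
    simp only [hG, coeff_monomial_mul']
    split_ifs <;> simp
  have h2 : ∑ S ∈ mid Y Z p q, coeff (ind S) F * coeff (ind R) (monomial (ind S) 1 * h) =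
      ∑ m ∈ (mid Y Z p q).image ind, G m := by
    rw [Finset.sum_image (fun a _ b _ hab => ind_injective hab)]
  rw [h1, h2]
  have h3 : ∑ m ∈ F.support, G m = ∑ m ∈ F.support ∪ (mid Y Z p q).image ind, G m := by
    refine Finset.sum_subset subset_union_left fun m _ hm => ?_
    simp [hG, notMem_support_iff.1 hm]
  have h4 : ∑ m ∈ (mid Y Z p q).image ind, G m =
      ∑ m ∈ F.support ∪ (mid Y Z p q).image ind, G m := by
    refine Finset.sum_subset subset_union_right fun m hm1 hm => ?_
    have hs : m ∈ F.support := by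
      rcases mem_union.1 hm1 with h | h
      · exact h
      · exact absurd h hm
    simp only [hG, coeff_monomial_mul']
    split_ifs with hle
    · exfalso
      obtain ⟨S, rfl⟩ := exists_ind_of_le hle
      have hw := hF (mem_support_iff.1 hs)
      rw [weight_ind] at hw
      apply hm
      refine mem_image_of_mem _ (mem_mid.2 ?_)
      simpa using hw
    · simp
  rw [h3, h4]

noncomputable def mat (a b k l : ℕ) (f : MvPolynomial (Y ⊕ Z) K) :
    Matrix (mid Y Z (a + k) (b + l)) (mid Y Z a b) K :=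
  fun R S => coeff (ind R.1) (monomial (ind S.1) 1 * f)

noncomputable def mu (a b k l : ℕ) (f : MvPolynomial (Y ⊕ Z) K) : ℝ := (mat a b k l f).rank

variable {a b k l : ℕ}

theorem mu_nonneg (f : MvPolynomial (Y ⊕ Z) K) : 0 ≤ mu a b k l f := Nat.cast_nonneg _

theorem mu_zero : mu a b k l (0 : MvPolynomial (Y ⊕ Z) K) = 0 := by
  have : mat a b k l (0 : MvPolynomial (Y ⊕ Z) K) = 0 := by
    ext R S; simp [mat]
  simp [mu, this]

theorem mu_add (f g : MvPolynomial (Y ⊕ Z) K) :
    mu a b k l (f + g) ≤ mu a b k l f + mu a b k l g := by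
  have : mat a b k l (f + g) = mat a b k l f + mat a b k l g := by
    ext R S; simp [mat, mul_add]
  unfold mu
  rw [this]
  exact_mod_cast rank_add_le' _ _

theorem mu_smul (c : K) (f : MvPolynomial (Y ⊕ Z) K) : mu a b k l (c • f) ≤ mu a b k l f := by
  have : mat a b k l (c • f) = c • mat a b k l f := by
    ext R S; simp [mat]
  unfold mu
  rw [this]
  exact_mod_cast rank_smul_le' _ _

theorem mu_sum {ι : Type*} (s : Finset ι) (f : ι → MvPolynomial (Y ⊕ Z) K) :
    mu a b k l (∑ i ∈ s, f i) ≤ ∑ i ∈ s, mu a b k l (f i) := by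
  classical
  induction s using Finset.induction_on with
  | empty => simp [mu_zero]
  | insert i s hi ih =>
    rw [sum_insert hi, sum_insert hi]
    exact (mu_add _ _).trans (by linarith)

theorem wh_mon {p q : ℕ} {S : Finset Y × Finset Z} (hS : S ∈ mid Y Z p q) :
    IsWeightedHomogeneous (wt Y Z) (monomial (ind S) (1 : K)) (p, q) := by
  apply isWeightedHomogeneous_monomial
  rw [weight_ind, (mem_mid.1 hS).1, (mem_mid.1 hS).2]

theorem mu_eq_zero {f : MvPolynomial (Y ⊕ Z) K} {x : ℕ × ℕ}
    (hf : IsWeightedHomogeneous (wt Y Z) f x) (hx : x ≠ (k, l)) : mu a b k l f = 0 := by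
  have : mat a b k l f = 0 := by
    ext R S
    have h1 := (wh_mon (K := K) S.2).mul hf
    refine h1.coeff_eq_zero _ ?_
    rw [weight_ind, (mem_mid.1 R.2).1, (mem_mid.1 R.2).2]
    intro h
    apply hx
    obtain ⟨x1, x2⟩ := x
    simp only [Prod.mk_add_mk, Prod.mk.injEq] at h ⊢
    omega
  simp [mu, this]

theorem mu_factor {g : MvPolynomial (Y ⊕ Z) K} {x : ℕ × ℕ}
    (hg : IsWeightedHomogeneous (wt Y Z) g x) (h : MvPolynomial (Y ⊕ Z) K) :
    mu a b k l (g * h) ≤
      ((Fintype.card Y).choose (a + x.1) : ℝ) * (Fintype.card Z).choose (b + x.2) := by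
  classical
  let M1 : Matrix (mid Y Z (a + k) (b + l)) (mid Y Z (a + x.1) (b + x.2)) K :=
    fun R S => coeff (ind R.1) (monomial (ind S.1) 1 * h)
  let M2 : Matrix (mid Y Z (a + x.1) (b + x.2)) (mid Y Z a b) K :=
    fun R S => coeff (ind R.1) (monomial (ind S.1) 1 * g)
  have : mat a b k l (g * h) = M1 * M2 := by
    ext R S
    have h1 := (wh_mon (K := K) S.2).mul hg
    simp only [mat, Matrix.mul_apply, M1, M2]
    rw [← mul_assoc, coeff_mul_mid (p := a + x.1) (q := b + x.2) h1,
      ← Finset.sum_coe_sort (mid Y Z (a + x.1) (b + x.2))]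
    exact Finset.sum_congr rfl fun T _ => mul_comm _ _
  unfold mu
  rw [this]
  have h2 := (Matrix.rank_mul_le_left M1 M2).trans (Matrix.rank_le_card_width M1)
  rw [Fintype.card_coe, card_mid] at h2
  exact_mod_cast h2

omit [DecidableEq Y] [DecidableEq Z] in
theorem homog_decomp {f : MvPolynomial (Y ⊕ Z) K} {e : ℕ} (hf : f.IsHomogeneous e) :
    f = ∑ x ∈ antidiagonal e, weightedHomogeneousComponent (wt Y Z) x f := by
  classical
  ext m
  simp only [coeff_sum, coeff_weightedHomogeneousComponent]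
  by_cases hm : coeff m f = 0
  · simp [hm]
  · have h1 : m.degree = e := by
      by_contra h
      exact hm (hf.coeff_eq_zero h)
    rw [Finset.sum_ite_eq, if_pos]
    rw [HasAntidiagonal.mem_antidiagonal, weight_eq, ← h1, Finsupp.degree_eq_sum, Fintype.sum_sum_type]

noncomputable def ww (L L' : ℝ) (x : ℕ × ℕ) : ℝ := (x.2 * L' - x.1 * L) / 2

theorem ww_add (L L' : ℝ) (x y : ℕ × ℕ) : ww L L' (x + y) = ww L L' x + ww L L' y := by
  simp only [ww, Prod.fst_add, Prod.snd_add]; push_cast; ring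

noncomputable def sg (L L' : ℝ) (e : ℕ) : ℝ := ∑ x ∈ antidiagonal e, Real.exp (-|ww L L' x|)

theorem sg_nonneg (L L' : ℝ) (e : ℕ) : 0 ≤ sg L L' e :=
  Finset.sum_nonneg fun _ _ => (Real.exp_pos _).le

theorem mu_prod_aux {L L' D : ℝ} (hD0 : 0 ≤ D)
    (hD : ∀ x : ℕ × ℕ, ((Fintype.card Y).choose (a + x.1) : ℝ) * (Fintype.card Z).choose (b + x.2)
      ≤ D * Real.exp (2 * ww L L' x))
    (s : Multiset (MvPolynomial (Y ⊕ Z) K × ℕ)) (hs : ∀ x ∈ s, x.1.IsHomogeneous x.2) :
    ∀ (g h : MvPolynomial (Y ⊕ Z) K) (pg ph : ℕ × ℕ), IsWeightedHomogeneous (wt Y Z) g pg →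
      IsWeightedHomogeneous (wt Y Z) h ph →
      mu a b k l (g * h * (s.map Prod.fst).prod) ≤
        D * Real.exp (ww L L' (k, l) + ww L L' pg - ww L L' ph) *
          (s.map (fun x => sg L L' x.2)).prod := by
  induction s using Multiset.induction_on with
  | empty =>
    intro g h pg ph hg hh
    simp only [Multiset.map_zero, Multiset.prod_zero, mul_one]
    by_cases hx : pg + ph = (k, l)
    · refine (mu_factor hg h).trans ((hD pg).trans (le_of_eq ?_))
      rw [← hx, ww_add]
      congr 2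
      ring
    · rw [mu_eq_zero (hg.mul hh) hx]
      positivity
  | cons x s ih =>
    intro g h pg ph hg hh
    have ih' := ih (fun x hx => hs x (Multiset.mem_cons_of_mem hx))
    have hx := hs x (Multiset.mem_cons_self _ _)
    simp only [Multiset.map_cons, Multiset.prod_cons]
    have hP : 0 ≤ (s.map (fun x => sg L L' x.2)).prod :=
      Multiset.prod_nonneg (fun y hy => by
        obtain ⟨w, _, rfl⟩ := Multiset.mem_map.1 hy
        exact sg_nonneg _ _ _)
    set P := (s.map (fun x => sg L L' x.2)).prod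
    set T := (s.map Prod.fst).prod
    have e1 : g * h * (x.1 * T) =
        ∑ u ∈ antidiagonal x.2, g * h * (weightedHomogeneousComponent (wt Y Z) u x.1 * T) := by
      conv_lhs => rw [homog_decomp hx, Finset.sum_mul, Finset.mul_sum]
    rw [e1]
    refine (mu_sum _ _).trans ?_
    rw [sg, Finset.sum_mul, Finset.mul_sum]
    refine Finset.sum_le_sum fun u _ => ?_
    have hu := weightedHomogeneousComponent_isWeightedHomogeneous (w := wt Y Z) u x.1
    set Q := weightedHomogeneousComponent (wt Y Z) u x.1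
    rcases le_total (ww L L' u) 0 with h0 | h0
    · have := ih' (g * Q) h _ _ (hg.mul hu) hh
      rw [show g * h * (Q * T) = g * Q * h * T by ring]
      refine this.trans (le_of_eq ?_)
      rw [ww_add, abs_of_nonpos h0, neg_neg,
        show ww L L' (k, l) + (ww L L' pg + ww L L' u) - ww L L' ph =
          (ww L L' (k, l) + ww L L' pg - ww L L' ph) + ww L L' u by ring, Real.exp_add]
      ring
    · have := ih' g (h * Q) _ _ hg (hh.mul hu)
      rw [show g * h * (Q * T) = g * (h * Q) * T by ring]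
      refine this.trans (le_of_eq ?_)
      rw [ww_add, abs_of_nonneg h0,
        show ww L L' (k, l) + ww L L' pg - (ww L L' ph + ww L L' u) =
          (ww L L' (k, l) + ww L L' pg - ww L L' ph) + -ww L L' u by ring, Real.exp_add]
      ring

theorem mu_prod {L L' D : ℝ} (hD0 : 0 ≤ D)
    (hD : ∀ x : ℕ × ℕ, ((Fintype.card Y).choose (a + x.1) : ℝ) * (Fintype.card Z).choose (b + x.2)
      ≤ D * Real.exp (2 * ww L L' x))
    (s : Multiset (MvPolynomial (Y ⊕ Z) K × ℕ)) (hs : ∀ x ∈ s, x.1.IsHomogeneous x.2) :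
    mu a b k l ((s.map Prod.fst).prod) ≤
        D * Real.exp (ww L L' (k, l)) * (s.map (fun x => sg L L' x.2)).prod := by
  have := mu_prod_aux (k := k) (l := l) hD0 hD s hs 1 1 0 0 (isWeightedHomogeneous_one K _)
    (isWeightedHomogeneous_one K _)
  simpa using this

theorem mu_eq_zero_of_homog {f : MvPolynomial (Y ⊕ Z) K} {e : ℕ} (hf : f.IsHomogeneous e)
    (he : e ≠ k + l) : mu a b k l f = 0 := by
  refine le_antisymm ?_ (mu_nonneg _)
  rw [homog_decomp hf]
  refine (mu_sum _ _).trans (le_of_eq (Finset.sum_eq_zero fun u hu => ?_))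
  refine mu_eq_zero (weightedHomogeneousComponent_isWeightedHomogeneous u f) ?_
  rintro rfl
  exact he (HasAntidiagonal.mem_antidiagonal.1 hu).symm

end Vale.Agent.P346
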