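import Vale.Agent.P346.Greedy
import Vale.Agent.P346.Measure
import Vale.Agent.P346.Defs

namespace Vale.Agent.P346

open Finset MvPolynomial

def paths (w d : ℕ) : Finset (Fin (d + 1) → Fin w) :=
  univ.filter (fun v => (v 0).val = 0 ∧ (v (Fin.last d)).val = 0)

def ed {w d : ℕ} (u : Fin (d + 1) → Fin w) (s : Fin d) : Fin d × Fin w × Fin w :=
  (s, u s.castSucc, u s.succ)

theorem ed_inj {w d : ℕ} {u u' : Fin (d + 1) → Fin w} {s s' : Fin d} (h : ed u s = ed u' s') :
    s = s' := congrArg Prod.fst h

variable {Y Z : Type} [Fintype Y] [DecidableEq Y] [Fintype Z] [DecidableEq Z] {w d : ℕ}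
  (t : Fin d → Prop) [DecidablePred t]
  (jY : Fin d × Fin w × Fin w ↪ Y) (jZ : Fin d × Fin w × Fin w ↪ Z)

def emb (v : Fin d × Fin w × Fin w) : Y ⊕ Z :=
  if t v.1 then Sum.inl (jY v) else Sum.inr (jZ v)

def eS (u : Fin (d + 1) → Fin w) : Finset Y × Finset Z :=
  ((univ.filter t).image (fun s => jY (ed u s)),
    (univ.filter (fun s => ¬ t s)).image (fun s => jZ (ed u s)))

omit [Fintype Y] [Fintype Z] in
theorem mem_eS1 (u : Fin (d + 1) → Fin w) (v : Fin d × Fin w × Fin w) :
    jY v ∈ (eS t jY jZ u).1 ↔ t v.1 ∧ ed u v.1 = v := by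
  simp only [eS, mem_image, mem_filter, mem_univ, true_and, EmbeddingLike.apply_eq_iff_eq]
  constructor
  · rintro ⟨s, hs, rfl⟩; exact ⟨hs, rfl⟩
  · rintro ⟨h1, h2⟩; exact ⟨_, h1, h2⟩

omit [Fintype Y] [Fintype Z] in
theorem mem_eS2 (u : Fin (d + 1) → Fin w) (v : Fin d × Fin w × Fin w) :
    jZ v ∈ (eS t jY jZ u).2 ↔ ¬ t v.1 ∧ ed u v.1 = v := by
  simp only [eS, mem_image, mem_filter, mem_univ, true_and, EmbeddingLike.apply_eq_iff_eq]
  constructor
  · rintro ⟨s, hs, rfl⟩; exact ⟨hs, rfl⟩
  · rintro ⟨h1, h2⟩; exact ⟨_, h1, h2⟩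

omit [Fintype Y] [Fintype Z] in
theorem card_eS1 (u : Fin (d + 1) → Fin w) : (eS t jY jZ u).1.card = (univ.filter t).card :=
  card_image_of_injective _ fun _ _ h => ed_inj (jY.injective h)

omit [Fintype Y] [Fintype Z] in
theorem card_eS2 (u : Fin (d + 1) → Fin w) :
    (eS t jY jZ u).2.card = (univ.filter (fun s => ¬ t s)).card :=
  card_image_of_injective _ fun _ _ h => ed_inj (jZ.injective h)

theorem sum_single_eq (u : Fin (d + 1) → Fin w) :
    ∑ s : Fin d, Finsupp.single (emb t jY jZ (ed u s)) 1 = ind (eS t jY jZ u) := by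
  ext v
  rw [Finsupp.finset_sum_apply]
  rcases v with y | z
  · rw [ind_inl]
    split_ifs with h
    · obtain ⟨s, hs, rfl⟩ := mem_image.1 h
      have hs' : t s := (mem_filter.1 hs).2
      rw [Finset.sum_eq_single s]
      · simp [emb, ed, hs']
      · intro s' _ hne
        rw [Finsupp.single_apply, if_neg]
        unfold emb
        split_ifs
        · intro h
          exact hne (ed_inj (jY.injective (Sum.inl_injective h)))
        · simp
      · simp
    · refine Finset.sum_eq_zero fun s _ => ?_
      rw [Finsupp.single_apply, if_neg]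
      unfold emb
      split_ifs with h'
      · intro h2
        apply h
        rw [← Sum.inl_injective h2]
        exact (mem_eS1 t jY jZ u _).2 ⟨h', rfl⟩
      · simp
  · rw [ind_inr]
    split_ifs with h
    · obtain ⟨s, hs, rfl⟩ := mem_image.1 h
      have hs' : ¬ t s := (mem_filter.1 hs).2
      rw [Finset.sum_eq_single s]
      · simp [emb, ed, hs']
      · intro s' _ hne
        rw [Finsupp.single_apply, if_neg]
        unfold emb
        split_ifs
        · simp
        · intro h
          exact hne (ed_inj (jZ.injective (Sum.inr_injective h)))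
      · simp
    · refine Finset.sum_eq_zero fun s _ => ?_
      rw [Finsupp.single_apply, if_neg]
      unfold emb
      split_ifs with h'
      · simp
      · intro h2
        apply h
        rw [← Sum.inr_injective h2]
        exact (mem_eS2 t jY jZ u _).2 ⟨h', rfl⟩

theorem rename_IMM (K : Type) [Field K] :
    rename (emb t jY jZ) (IMM K w d) = ∑ u ∈ paths w d, monomial (ind (eS t jY jZ u)) 1 := by
  unfold IMM paths
  rw [map_sum]
  refine Finset.sum_congr rfl fun u _ => ?_
  rw [← sum_single_eq, monomial_sum_one, map_prod]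
  refine Finset.prod_congr rfl fun s _ => ?_
  rw [rename_X]
  rfl

noncomputable def natMat (a b k l : ℕ) : Matrix (mid Y Z (a + k) (b + l)) (mid Y Z a b) ℕ :=
  fun R S => ∑ u ∈ paths w d, if ind S.1 + ind (eS t jY jZ u) = ind R.1 then 1 else 0

theorem mat_IMM (K : Type) [Field K] (a b k l : ℕ) :
    mat a b k l (rename (emb t jY jZ) (IMM K w d)) =
      (natMat t jY jZ a b k l).map (fun x => (x : K)) := by
  ext R S
  simp only [mat, rename_IMM, Finset.mul_sum, coeff_sum, monomial_mul, coeff_monomial, natMat,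
    Matrix.map_apply, Nat.cast_sum, Nat.cast_ite, Nat.cast_one, Nat.cast_zero, mul_one]

theorem card_paths (o : Fin w) (ho : o.val = 0) : w ^ (d + 1) ≤ w * w * (paths w d).card := by
  have h := Finset.card_le_card_of_injOn (s := (univ : Finset (Fin (d + 1) → Fin w)))
    (t := (univ : Finset (Fin w)) ×ˢ (univ : Finset (Fin w)) ×ˢ paths w d)
    (fun v => (v 0, v (Fin.last d), fun i => if i = 0 ∨ i = Fin.last d then o else v i))
    (fun v _ => by simp [paths, ho]) (by
      intro v _ v' _ h
      simp only [Prod.mk.injEq] at h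
      ext i
      by_cases h0 : i = 0
      · rw [h0, h.1]
      by_cases h1 : i = Fin.last d
      · rw [h1, h.2.1]
      have := congrFun h.2.2 i
      simp only [h0, h1, or_self, if_false] at this
      rw [this])
  simpa [mul_assoc] using h

omit [DecidableEq Y] in
theorem card_disj (T : Finset Y) (a : ℕ) [DecidablePred fun A : Finset Y => Disjoint A T] :
    ((powersetCard a (univ : Finset Y)).filter (fun A => Disjoint A T)).card =
      (Fintype.card Y - T.card).choose a := by
  classical
  rw [← Finset.card_compl, ← card_powersetCard]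
  congr 1
  ext A
  simp [mem_powersetCard, and_comm, Finset.subset_compl_iff_disjoint_right]

theorem ind_add_of_disj {S E : Finset Y × Finset Z} (h1 : Disjoint S.1 E.1)
    (h2 : Disjoint S.2 E.2) : ind S + ind E = ind (S.1 ∪ E.1, S.2 ∪ E.2) := by
  ext v
  rcases v with y | z
  · have : y ∈ S.1 → y ∉ E.1 := fun h => Finset.disjoint_left.1 h1 h
    simp only [Finsupp.add_apply, ind_inl, mem_union]
    by_cases a1 : y ∈ S.1 <;> by_cases a2 : y ∈ E.1 <;> simp_all
  · have : z ∈ S.2 → z ∉ E.2 := fun h => Finset.disjoint_left.1 h2 h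
    simp only [Finsupp.add_apply, ind_inr, mem_union]
    by_cases a1 : z ∈ S.2 <;> by_cases a2 : z ∈ E.2 <;> simp_all

theorem sum_natMat_ge (a b k l : ℕ) (hk : (univ.filter t).card = k)
    (hl : (univ.filter (fun s => ¬ t s)).card = l) :
    (paths w d).card * ((Fintype.card Y - k).choose a * (Fintype.card Z - l).choose b) ≤
      ∑ S, ∑ R, natMat t jY jZ a b k l R S := by
  classical
  unfold natMat
  simp only [Finset.sum_comm (s := univ) (t := paths w d)]
  rw [← smul_eq_mul, ← Finset.sum_const]
  refine Finset.sum_le_sum fun u _ => ?_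
  rw [← hk, ← hl, ← card_eS1 t jY jZ u, ← card_eS2 t jY jZ u, ← card_disj, ← card_disj,
    ← card_product, ← filter_product, card_filter]
  change ∑ S ∈ mid Y Z a b, _ ≤ _
  rw [← Finset.sum_coe_sort (mid Y Z a b)]
  refine Finset.sum_le_sum fun S _ => ?_
  split_ifs with h
  · have hm := mem_mid.1 S.2
    have hR : (S.1.1 ∪ (eS t jY jZ u).1, S.1.2 ∪ (eS t jY jZ u).2) ∈
        mid Y Z (a + (eS t jY jZ u).1.card) (b + (eS t jY jZ u).2.card) := by
      rw [mem_mid]
      simp only
      rw [card_union_of_disjoint h.1, card_union_of_disjoint h.2, hm.1, hm.2]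
      exact ⟨rfl, rfl⟩
    refine le_trans ?_ (Finset.single_le_sum (f := fun R : mid Y Z _ _ =>
      if ind S.1 + ind (eS t jY jZ u) = ind R.1 then 1 else 0) (fun _ _ => Nat.zero_le _)
      (mem_univ ⟨_, hR⟩))
    simp only
    rw [if_pos (ind_add_of_disj h.1 h.2)]
  · exact Nat.zero_le _

end Vale.Agent.P346
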