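import Vale.Agent.P346.Measure

namespace Vale.Agent.P346

open Finset

noncomputable def offd (q : ℝ) (x : ℕ × ℕ) : ℝ :=
  if x.1 = x.2 then 0 else q ^ ((x.1 - x.2) + (x.2 - x.1))

noncomputable def offS (q : ℝ) (e : ℕ) : ℝ := ∑ x ∈ antidiagonal e, offd q x

theorem offS_succ (q : ℝ) (e : ℕ) : offS q (e + 2) = offS q e + 2 * q ^ (e + 2) := by
  unfold offS
  rw [Finset.Nat.antidiagonal_succ_succ', sum_cons, sum_cons, sum_map]
  have : ∀ x : ℕ × ℕ, offd q (Prod.map Nat.succ Nat.succ x) = offd q x := by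
    intro x
    simp [offd]
  simp only [Function.Embedding.prodMap, Function.Embedding.coeFn_mk, this]
  simp [offd]
  ring

theorem offS_even {q : ℝ} (hq : 0 ≤ q) (hq2 : q ^ 2 ≤ 1 / 2) (m : ℕ) :
    offS q (2 * m) + 4 * q ^ (2 * m + 2) ≤ 4 * q ^ 2 := by
  induction m with
  | zero => simp [offS, offd]
  | succ m ih =>
    rw [show 2 * (m + 1) = 2 * m + 2 by ring, offS_succ, pow_add q (2 * m + 2) 2]
    have : 0 ≤ q ^ (2 * m + 2) := by positivity
    nlinarith

theorem offS_odd {q : ℝ} (hq : 0 ≤ q) (hq2 : q ^ 2 ≤ 1 / 2) (m : ℕ) :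
    offS q (2 * m + 1) + 4 * q ^ (2 * m + 3) ≤ 4 * q := by
  induction m with
  | zero =>
    have : offS q 1 = 2 * q := by
      simp [offS, offd, Finset.Nat.antidiagonal_succ]; ring
    simp only [mul_zero, zero_add, this]
    nlinarith
  | succ m ih =>
    rw [show 2 * (m + 1) + 1 = 2 * m + 1 + 2 by ring, offS_succ,
      show 2 * (m + 1) + 3 = 2 * m + 3 + 2 by ring, pow_add q (2 * m + 3) 2]
    have : 0 ≤ q ^ (2 * m + 3) := by positivity
    rw [show 2 * m + 1 + 2 = 2 * m + 3 by ring]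
    nlinarith

theorem term_le {L L' : ℝ} (h0 : 0 ≤ L') (hL : L' ≤ L) (x : ℕ × ℕ) :
    Real.exp (-|ww L L' x|) ≤
      (if x.1 = x.2 then Real.exp (-((x.1 + x.2 : ℕ) * (L - L') / 4)) else 0) +
        Real.exp ((x.1 + x.2 : ℕ) * (L - L') / 4) * offd (Real.exp (-L' / 2)) x := by
  obtain ⟨i, j⟩ := x
  simp only [offd, ww]
  split_ifs with h
  · subst h
    simp only [mul_zero, add_zero]
    apply Real.exp_le_exp.2
    have := neg_abs_le (((i : ℝ) * L' - i * L) / 2)
    push_cast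
    linarith
  · rw [zero_add, ← Real.exp_nat_mul, ← Real.exp_add]
    apply Real.exp_le_exp.2
    rcases le_total i j with hij | hij
    · obtain ⟨d, rfl⟩ := Nat.exists_eq_add_of_le hij
      have := le_abs_self ((((i + d : ℕ) : ℝ) * L' - i * L) / 2)
      rw [show i - (i + d) + (i + d - i) = d by omega]
      push_cast at this ⊢
      have h1 : 0 ≤ (d : ℝ) * (L - L') := mul_nonneg (Nat.cast_nonneg _) (by linarith)
      nlinarith
    · obtain ⟨d, rfl⟩ := Nat.exists_eq_add_of_le hij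
      have := neg_abs_le (((j : ℝ) * L' - ((j + d : ℕ) : ℝ) * L) / 2)
      rw [show j + d - j + (j - (j + d)) = d by omega]
      push_cast at this ⊢
      have h1 : 0 ≤ (d : ℝ) * (L - L') := mul_nonneg (Nat.cast_nonneg _) (by linarith)
      have h2 : 0 ≤ (j : ℝ) * (L - L') := mul_nonneg (Nat.cast_nonneg _) (by linarith)
      nlinarith

theorem sg_le {L L' : ℝ} (h0 : 0 ≤ L') (hL : L' ≤ L) (e : ℕ) :
    sg L L' e ≤ (if Even e then Real.exp (-(e * (L - L') / 4)) else 0) +
      Real.exp (e * (L - L') / 4) * offS (Real.exp (-L' / 2)) e := by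
  unfold sg offS
  rw [Finset.mul_sum]
  have h1 : ∑ x ∈ antidiagonal e, (if x.1 = x.2 then Real.exp (-(e * (L - L') / 4)) else 0) ≤
      (if Even e then Real.exp (-(e * (L - L') / 4)) else 0) := by
    split_ifs with he
    · rw [← Finset.sum_filter]
      rw [Finset.sum_const, nsmul_eq_mul]
      have : ((antidiagonal e).filter (fun x : ℕ × ℕ => x.1 = x.2)).card ≤ 1 := by
        rw [Finset.card_le_one]
        intro x hx y hy
        simp only [mem_filter, HasAntidiagonal.mem_antidiagonal] at hx hy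
        ext <;> omega
      have h2 : (((antidiagonal e).filter (fun x : ℕ × ℕ => x.1 = x.2)).card : ℝ) ≤ 1 := by
        exact_mod_cast this
      have := Real.exp_pos (-(e * (L - L') / 4))
      nlinarith
    · refine le_of_eq (Finset.sum_eq_zero fun x hx => ?_)
      rw [if_neg]
      intro h
      apply he
      exact ⟨x.1, by have := HasAntidiagonal.mem_antidiagonal.1 hx; omega⟩
  refine le_trans ?_ (add_le_add_left h1 _)
  rw [← Finset.sum_add_distrib]
  refine Finset.sum_le_sum fun x hx => ?_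
  have := term_le h0 hL x
  rwa [HasAntidiagonal.mem_antidiagonal.1 hx] at this

theorem sg_zero (L L' : ℝ) : sg L L' 0 = 1 := by simp [sg, ww]

theorem sg_one {L L' : ℝ} (h0 : 0 ≤ L') (hL : L' ≤ L) :
    sg L L' 1 ≤ 2 * Real.exp (-L' / 2) := by
  have : sg L L' 1 = Real.exp (-|L' / 2|) + Real.exp (-|L / 2|) := by
    simp [sg, ww, Finset.Nat.antidiagonal_succ, neg_div]
  rw [this, abs_of_nonneg (by linarith), abs_of_nonneg (by linarith)]
  have h1 : Real.exp (-(L / 2)) ≤ Real.exp (-L' / 2) := Real.exp_le_exp.2 (by linarith)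
  have h2 : Real.exp (-(L' / 2)) = Real.exp (-L' / 2) := by congr 1; ring
  linarith

theorem sg_le_succ (L L' : ℝ) (e : ℕ) : sg L L' e ≤ e + 1 := by
  unfold sg
  have : ∑ x ∈ antidiagonal e, Real.exp (-|ww L L' x|) ≤ ∑ x ∈ antidiagonal e, (1 : ℝ) :=
    Finset.sum_le_sum fun x _ => Real.exp_le_one_iff.2 (by simp)
  simpa using this

theorem sg_low {L L' : ℝ} {τ : ℕ} (h0 : 0 ≤ L') (hL : L' ≤ L)
    (hq : Real.exp (-L' / 2) ^ 2 ≤ 1 / 2)
    (ha : ∀ e : ℕ, 1 ≤ e → e ≤ τ → Real.exp (e * (L - L') / 2) ≤ 2 * e)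
    (hb : 4 * Real.exp (-L' / 2) * Real.exp (τ * (L - L') / 2) ≤ 1) (e : ℕ) (he : e ≤ τ) :
    sg L L' e ≤ Real.exp (-(((L - L') / 4 - 8 * Real.exp (-L' / 2) ^ 2) * e)) := by
  set q := Real.exp (-L' / 2) with hqd
  have hq0 : 0 ≤ q := (Real.exp_pos _).le
  rcases Nat.eq_zero_or_pos e with rfl | he1
  · simp [sg_zero]
  have hsplit : Real.exp (e * (L - L') / 4) =
      Real.exp (-(e * (L - L') / 4)) * Real.exp (e * (L - L') / 2) := by
    rw [← Real.exp_add]; congr 1; ring
  have htarget : Real.exp (-(((L - L') / 4 - 8 * q ^ 2) * e)) =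
      Real.exp (-(e * (L - L') / 4)) * Real.exp (8 * q ^ 2 * e) := by
    rw [← Real.exp_add]; congr 1; ring
  have hE := Real.exp_pos (-(e * (L - L') / 4))
  have hE2 := Real.exp_pos (e * (L - L') / 2)
  have h1 := Real.add_one_le_exp (8 * q ^ 2 * e)
  have h8 : 0 ≤ 8 * q ^ 2 * e := by positivity
  refine (sg_le h0 hL e).trans ?_
  rw [htarget, hsplit, ← hqd]
  rcases Nat.even_or_odd' e with ⟨m, hm | hm⟩
  · rw [if_pos ⟨m, by omega⟩]
    have h2 := offS_even hq0 hq m
    rw [← hm] at h2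
    have h3 : offS q e ≤ 4 * q ^ 2 := by
      have : 0 ≤ q ^ (e + 2) := by positivity
      linarith
    have h4 := ha e he1 he
    have h5 : Real.exp (e * (L - L') / 2) * offS q e ≤ 8 * q ^ 2 * e := by
      calc _ ≤ Real.exp (e * (L - L') / 2) * (4 * q ^ 2) := by gcongr
        _ ≤ (2 * e) * (4 * q ^ 2) := by gcongr
        _ = _ := by ring
    rw [mul_assoc]
    nlinarith
  · rw [if_neg (by rw [hm]; simp), zero_add]
    have h2 := offS_odd hq0 hq m
    rw [← hm] at h2
    have h3 : offS q e ≤ 4 * q := by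
      have : 0 ≤ q ^ (2 * m + 3) := by positivity
      linarith
    have h4 : Real.exp (e * (L - L') / 2) ≤ Real.exp (τ * (L - L') / 2) := by
      apply Real.exp_le_exp.2
      have : (e : ℝ) ≤ τ := by exact_mod_cast he
      have : 0 ≤ L - L' := by linarith
      gcongr
    have h5 : Real.exp (e * (L - L') / 2) * offS q e ≤ 1 := by
      calc _ ≤ Real.exp (e * (L - L') / 2) * (4 * q) := by gcongr
        _ ≤ Real.exp (τ * (L - L') / 2) * (4 * q) := by gcongr
        _ ≤ 1 := by linarith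
    rw [mul_assoc]
    nlinarith

end Vale.Agent.P346
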