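import Vale.Agent.P346.Defs

namespace Vale.Agent.P346

open MvPolynomial Finset

variable {K σ : Type} [Field K]

theorem homog_mprod {α : Type} (s : Multiset α) (f : α → MvPolynomial σ K) (d : α → ℕ)
    (h : ∀ x ∈ s, (f x).IsHomogeneous (d x)) :
    (s.map f).prod.IsHomogeneous (s.map d).sum := by
  induction s using Multiset.induction_on with
  | empty => simpa using isHomogeneous_one σ K
  | cons x s ih =>
    simp only [Multiset.map_cons, Multiset.prod_cons, Multiset.sum_cons]
    exact (h x (Multiset.mem_cons_self _ _)).mul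
      (ih fun y hy => h y (Multiset.mem_cons_of_mem hy))

theorem sup_eq_of_all {α : Type} (s : Finset α) (d : α → ℕ)
    (h : ∀ i ∈ s, ∀ j ∈ s, d i = d j) {i : α} (hi : i ∈ s) : d i = s.sup d :=
  le_antisymm (Finset.le_sup hi) (Finset.sup_le fun j hj => (h j hj i hi).le)

theorem homog_lin {α : Type} (s : Finset α) (c : α → K) (f : α → MvPolynomial σ K) (d : α → ℕ)
    (h : ∀ x, (f x).IsHomogeneous (d x)) (hd : ∀ i ∈ s, ∀ j ∈ s, d i = d j) :
    (∑ i ∈ s, c i • f i).IsHomogeneous (s.sup d) := by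
  refine IsHomogeneous.sum _ _ _ fun i hi => ?_
  rw [← sup_eq_of_all s d hd hi, smul_eq_C_mul]
  simpa using (isHomogeneous_C σ (c i)).mul (h i)

namespace Circuit

variable (G : Circuit K σ)

theorem homog0 (i : Fin G.n0) : (G.val0 i).IsHomogeneous (G.deg0 i) := by
  unfold val0 deg0
  rcases G.leaf i with v | c
  · exact isHomogeneous_X K v
  · exact isHomogeneous_C σ c

theorem deg0_le (i : Fin G.n0) : G.deg0 i ≤ 1 := by
  unfold deg0
  rcases G.leaf i with v | c <;> simp

theorem deg1_le (g : Fin G.n1) : G.deg1 g ≤ 1 := Finset.sup_le fun i _ => G.deg0_le i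

variable {G}

theorem homog1 (hG : G.Homogeneous) (g : Fin G.n1) : (G.val1 g).IsHomogeneous (G.deg1 g) :=
  homog_lin _ _ _ _ G.homog0 (hG.1 g)

theorem homog2 (hG : G.Homogeneous) (g : Fin G.n2) : (G.val2 g).IsHomogeneous (G.deg2 g) :=
  homog_mprod _ _ _ fun x _ => homog1 hG x

theorem homog3 (hG : G.Homogeneous) (g : Fin G.n3) : (G.val3 g).IsHomogeneous (G.deg3 g) :=
  homog_lin _ _ _ _ (homog2 hG) (hG.2.1 g)

theorem homog4 (hG : G.Homogeneous) (g : Fin G.n4) : (G.val4 g).IsHomogeneous (G.deg4 g) :=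
  homog_mprod _ _ _ fun x _ => homog3 hG x

end Circuit

theorem mprod_le_exp {α : Type} (s : Multiset α) (f : α → ℝ) (d : α → ℕ) (κ : ℝ)
    (h0 : ∀ x, 0 ≤ f x) (h : ∀ x ∈ s, f x ≤ Real.exp (-(κ * d x))) :
    (s.map f).prod ≤ Real.exp (-(κ * ((s.map d).sum : ℕ))) := by
  induction s using Multiset.induction_on with
  | empty => simp
  | cons x s ih =>
    simp only [Multiset.map_cons, Multiset.prod_cons, Multiset.sum_cons]
    have h1 := ih fun y hy => h y (Multiset.mem_cons_of_mem hy)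
    have h2 := h x (Multiset.mem_cons_self _ _)
    have h3 : 0 ≤ (s.map f).prod := Multiset.prod_nonneg fun y hy => by
      obtain ⟨w, _, rfl⟩ := Multiset.mem_map.1 hy
      exact h0 w
    calc _ ≤ Real.exp (-(κ * d x)) * Real.exp (-(κ * ((s.map d).sum : ℕ))) := by gcongr
      _ = _ := by rw [← Real.exp_add]; congr 1; push_cast; ring

theorem mprod_le_pow {α : Type} (s : Multiset α) (f : α → ℝ) (d : α → ℕ) (ρ : ℝ) (hρ : 0 ≤ ρ)
    (h0 : ∀ x, 0 ≤ f x) (h : ∀ x ∈ s, f x ≤ ρ ^ d x) :
    (s.map f).prod ≤ ρ ^ (s.map d).sum := by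
  induction s using Multiset.induction_on with
  | empty => simp
  | cons x s ih =>
    simp only [Multiset.map_cons, Multiset.prod_cons, Multiset.sum_cons]
    have h1 := ih fun y hy => h y (Multiset.mem_cons_of_mem hy)
    have h2 := h x (Multiset.mem_cons_self _ _)
    have h3 : 0 ≤ (s.map f).prod := Multiset.prod_nonneg fun y hy => by
      obtain ⟨w, _, rfl⟩ := Multiset.mem_map.1 hy
      exact h0 w
    rw [pow_add]
    gcongr

theorem circuit_bound (G : Circuit K σ) (hG : G.Homogeneous) (μ : MvPolynomial σ K → ℝ)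
    (sg : ℕ → ℝ) (B κ ρ : ℝ) (n τ : ℕ) (hB : 0 ≤ B)
    (hsum : ∀ {ι : Type} (s : Finset ι) (c : ι → K) (f : ι → MvPolynomial σ K),
      μ (∑ i ∈ s, c i • f i) ≤ ∑ i ∈ s, μ (f i))
    (hprod : ∀ s : Multiset (MvPolynomial σ K × ℕ), (∀ x ∈ s, x.1.IsHomogeneous x.2) →
      μ (s.map Prod.fst).prod ≤ B * (s.map (fun x => sg x.2)).prod)
    (hzero : ∀ (f : MvPolynomial σ K) (e : ℕ), f.IsHomogeneous e → e ≠ n → μ f = 0)
    (hs0 : ∀ e, 0 ≤ sg e) (hsz : sg 0 ≤ 1) (hs1 : sg 1 ≤ ρ) (hρ0 : 0 ≤ ρ) (hρ1 : ρ ≤ 1)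
    (hse : ∀ e, sg e ≤ e + 1) (hlow : ∀ e, e ≤ τ → sg e ≤ Real.exp (-(κ * e))) :
    μ G.output ≤ G.size * (B * (Real.exp (-(κ * n)) + G.size * ((n + 1) * ρ ^ τ))) := by
  classical
  have hterm : ∀ i, μ (G.val4 i) ≤ B * (Real.exp (-(κ * n)) + G.size * ((n + 1) * ρ ^ τ)) := by
    intro i
    have hpos1 : 0 ≤ Real.exp (-(κ * n)) := (Real.exp_pos _).le
    have hpos2 : (0 : ℝ) ≤ G.size * ((n + 1) * ρ ^ τ) := by positivity
    by_cases hd : G.deg4 i = n
    swap
    · rw [hzero _ _ (Circuit.homog4 hG i) hd]; positivity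
    by_cases hall : ∀ g ∈ G.in4 i, G.deg3 g ≤ τ
    · have h1 := hprod ((G.in4 i).map fun g => (G.val3 g, G.deg3 g)) (by
        intro x hx
        obtain ⟨g, _, rfl⟩ := Multiset.mem_map.1 hx
        exact Circuit.homog3 hG g)
      simp only [Multiset.map_map, Function.comp_def] at h1
      have h2 := mprod_le_exp (G.in4 i) (fun g => sg (G.deg3 g)) G.deg3 κ (fun _ => hs0 _)
        (fun g hg => hlow _ (hall g hg))
      have h3 : ((G.in4 i).map G.deg3).sum = n := hd
      rw [h3] at h2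
      calc μ (G.val4 i) ≤ _ := h1
        _ ≤ B * Real.exp (-(κ * n)) := by gcongr
        _ ≤ _ := by gcongr; linarith
    · push Not at hall
      obtain ⟨g, hg, hτ⟩ := hall
      obtain ⟨t, ht⟩ := Multiset.exists_cons_of_mem hg
      set R := (t.map G.val3).prod with hR
      have hRh : R.IsHomogeneous (t.map G.deg3).sum :=
        homog_mprod _ _ _ fun x _ => Circuit.homog3 hG x
      have hr : (t.map G.deg3).sum ≤ n := by
        have : G.deg4 i = G.deg3 g + (t.map G.deg3).sum := by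
          simp [Circuit.deg4, ht]
        omega
      have e1 : G.val4 i = ∑ j ∈ G.in3 g, G.c3 g j • (R * G.val2 j) := by
        simp only [Circuit.val4, ht, Multiset.map_cons, Multiset.prod_cons, ← hR]
        rw [Circuit.val3, Finset.sum_mul]
        refine Finset.sum_congr rfl fun j _ => ?_
        rw [smul_mul_assoc, mul_comm]
      have h2 : ∀ j ∈ G.in3 g, μ (R * G.val2 j) ≤ B * ((n + 1) * ρ ^ τ) := by
        intro j hj
        have h1 := hprod ((R, (t.map G.deg3).sum) ::ₘ
          ((G.in2 j).map fun g => (G.val1 g, G.deg1 g))) (by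
          intro x hx
          rcases Multiset.mem_cons.1 hx with rfl | hx
          · exact hRh
          obtain ⟨g, _, rfl⟩ := Multiset.mem_map.1 hx
          exact Circuit.homog1 hG g)
        simp only [Multiset.map_cons, Multiset.prod_cons, Multiset.map_map,
          Function.comp_def] at h1
        have h3 := mprod_le_pow (G.in2 j) (fun g => sg (G.deg1 g)) G.deg1 ρ hρ0 (fun _ => hs0 _)
          (fun g _ => by
            have := G.deg1_le g
            rcases Nat.le_one_iff_eq_zero_or_eq_one.1 this with h | h <;> simp [h, hsz, hs1])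
        have h4 : ((G.in2 j).map G.deg1).sum = G.deg3 g :=
          sup_eq_of_all _ _ (hG.2.1 g) hj
        rw [h4] at h3
        have h5 : ρ ^ G.deg3 g ≤ ρ ^ τ := pow_le_pow_of_le_one hρ0 hρ1 hτ.le
        have h6 : sg (t.map G.deg3).sum ≤ n + 1 := by
          refine (hse _).trans ?_
          have : (((t.map G.deg3).sum : ℕ) : ℝ) ≤ n := by exact_mod_cast hr
          linarith
        have h7 : 0 ≤ ((G.in2 j).map (fun g => sg (G.deg1 g))).prod :=
          Multiset.prod_nonneg fun y hy => by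
            obtain ⟨w, _, rfl⟩ := Multiset.mem_map.1 hy
            exact hs0 _
        refine h1.trans ?_
        gcongr
        exact h3.trans h5
      have hc : ((G.in3 g).card : ℝ) ≤ G.size := by
        have : (G.in3 g).card ≤ G.n2 := by simpa using Finset.card_le_univ (G.in3 g)
        have : (G.in3 g).card ≤ G.size := by unfold Circuit.size; omega
        exact_mod_cast this
      calc μ (G.val4 i) ≤ ∑ j ∈ G.in3 g, μ (R * G.val2 j) := by rw [e1]; exact hsum _ _ _
        _ ≤ ∑ j ∈ G.in3 g, B * ((n + 1) * ρ ^ τ) := Finset.sum_le_sum h2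
        _ = (G.in3 g).card * (B * ((n + 1) * ρ ^ τ)) := by simp
        _ ≤ G.size * (B * ((n + 1) * ρ ^ τ)) := by gcongr
        _ = B * (G.size * ((n + 1) * ρ ^ τ)) := by ring
        _ ≤ _ := by gcongr; linarith
  have hc : (G.in5.card : ℝ) ≤ G.size := by
    have : G.in5.card ≤ G.n4 := by simpa using Finset.card_le_univ G.in5
    have : G.in5.card ≤ G.size := by unfold Circuit.size; omega
    exact_mod_cast this
  calc μ G.output ≤ ∑ i ∈ G.in5, μ (G.val4 i) := hsum _ _ _
    _ ≤ ∑ i ∈ G.in5, B * (Real.exp (-(κ * n)) + G.size * ((n + 1) * ρ ^ τ)) :=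
        Finset.sum_le_sum fun i _ => hterm i
    _ = G.in5.card * (B * (Real.exp (-(κ * n)) + G.size * ((n + 1) * ρ ^ τ))) := by simp
    _ ≤ _ := by gcongr

end Vale.Agent.P346
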