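import Vale.Agent.P346.Quad
import Vale.Agent.P346.Binom
import Vale.Agent.P346.Sigma
import Vale.Agent.P346.Struct

namespace Vale.Agent.P346

open Finset MvPolynomial

theorem mu_IMM_ge {K : Type} [Field K] [CharZero K] {n y z M : ℕ} (hz : 1 ≤ z) (hzy : z ≤ y)
    (hw : 4 * y ≤ n) (hM : n * (y + 1) ≤ M)
    (jY : Fin n × Fin n × Fin n ↪ Fin ((y + 1) * M))
    (jZ : Fin n × Fin n × Fin n ↪ Fin ((z + 1) * M)) :
    (((y + 1) * M).choose (y * M) : ℝ) * ((z + 1) * M).choose M *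
        Real.exp (-(4 * n / z) - 4 * y) / (2 * n ^ 2) ≤
      mu (y * M) M (PQ y z n).1 (PQ y z n).2
        (rename (emb (fun s : Fin n => tY y z s) jY jZ) (IMM K n n)) := by
  have hy : 1 ≤ y := hz.trans hzy
  have hn : 0 < n := by omega
  have hM0 : 0 < M := lt_of_lt_of_le (Nat.mul_pos hn (Nat.succ_pos y)) hM
  have hyR : (1 : ℝ) ≤ y := by exact_mod_cast hy
  have hzR : (1 : ℝ) ≤ z := by exact_mod_cast hz
  have hzyR : (z : ℝ) ≤ y := by exact_mod_cast hzy
  have hnR : (0 : ℝ) < n := by exact_mod_cast hn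
  have hkl := PQ_sum y z n
  have h4 := t4_le (d := n) (w := n) jY jZ hz hzy hw (a := y * M) (b := M)
    (fun i => by
      rw [Fintype.card_fin]
      exact_mod_cast binom3 hy hM0 (Nat.sub_le _ _) i)
    (fun j hj => by
      rw [Fintype.card_fin]
      exact_mod_cast binom4 z M j hj)
  have h2 := sum_natMat_ge (fun s : Fin n => tY y z s) jY jZ (y * M) M _ _
    (PQ_card y z n).1 (PQ_card y z n).2
  have h3 := sq_le_rank_mul (K := K)
    (natMat (fun s : Fin n => tY y z s) jY jZ (y * M) M (PQ y z n).1 (PQ y z n).2)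
  rw [← mat_IMM] at h3
  have h5 := card_paths (d := n) (⟨0, hn⟩ : Fin n) rfl
  set k := (PQ y z n).1
  set l := (PQ y z n).2
  have h6 := binom6 (k := k) hy hM0 ((Nat.mul_le_mul_right _ (by omega)).trans hM)
  have h7 := binom7 (l := l) hz hM0 ((Nat.mul_le_mul (by omega) (by omega)).trans hM)
  simp only [Fintype.card_fin] at h4 h2
  have h2' : ((paths n n).card : ℝ) * ((((y + 1) * M - k).choose (y * M) : ℝ) *
      (((z + 1) * M - l).choose M)) ≤
      ∑ S, ∑ R, (natMat (fun s : Fin n => tY y z s) jY jZ (y * M) M k l R S : ℝ) := by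
    exact_mod_cast h2
  have h5' : (n : ℝ) ^ n ≤ n * (paths n n).card := by
    have : (n : ℝ) ^ (n + 1) ≤ n * n * (paths n n).card := by exact_mod_cast h5
    rw [pow_succ', mul_assoc] at this
    exact le_of_mul_le_mul_left this hnR
  unfold mu
  set r : ℝ := ((mat (y * M) M k l
    (rename (emb (fun s : Fin n => tY y z s) jY jZ) (IMM K n n))).rank : ℝ)
  have hr : 0 ≤ r := Nat.cast_nonneg _
  set CY : ℝ := (((y + 1) * M).choose (y * M) : ℝ) with hCYd
  set CZ : ℝ := (((z + 1) * M).choose M : ℝ) with hCZd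
  set cY' : ℝ := (((y + 1) * M - k).choose (y * M) : ℝ)
  set cZ' : ℝ := (((z + 1) * M - l).choose M : ℝ)
  set U : ℝ := ((paths n n).card : ℝ)
  have hCY : 0 < CY := by
    have := Nat.choose_pos (n := (y + 1) * M) (k := y * M) (by rw [add_mul]; omega)
    rw [hCYd]
    exact_mod_cast this
  have hCZ : 0 < CZ := by
    have := Nat.choose_pos (n := (z + 1) * M) (k := M) (by rw [add_mul]; omega)
    rw [hCZd]
    exact_mod_cast this
  have hyk : 0 < (y : ℝ) ^ k := by positivity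
  have hcY : 0 < cY' := by
    have : 0 < cY' * (y : ℝ) ^ k := lt_of_lt_of_le (by positivity) h6
    exact (mul_pos_iff_of_pos_right hyk).1 this
  have hcZ : 0 < cZ' := lt_of_lt_of_le (by positivity) h7
  have hU : 0 ≤ U := Nat.cast_nonneg _
  have hΛ : ((n : ℝ) ^ 2 + 4 * y * n) ^ n ≤ ((n : ℝ) ^ n) ^ 2 * Real.exp (4 * y) := by
    have e1 : (n : ℝ) ^ 2 + 4 * y * n = n ^ 2 * (4 * y / n + 1) := by field_simp; ring
    have e2 : Real.exp (4 * y) = Real.exp (4 * y / n) ^ n := by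
      rw [← Real.exp_nat_mul]; congr 1; field_simp
    rw [e1, e2, mul_pow, ← pow_mul, ← pow_mul, mul_comm 2 n]
    gcongr
    exact Real.add_one_le_exp _
  have k1 : (U * (cY' * cZ')) ^ 2 ≤
      r * (cY' * CZ * (2 * (((n : ℝ) ^ n) ^ 2 * Real.exp (4 * y)) / (y : ℝ) ^ k)) := by
    calc _ ≤ _ := by gcongr
      _ ≤ _ := h3
      _ ≤ r * (cY' * CZ * (2 * ((n : ℝ) ^ 2 + 4 * y * n) ^ n / (y : ℝ) ^ k)) := by gcongr
      _ ≤ _ := by gcongr
  have hnn : (0 : ℝ) < (n : ℝ) ^ n := by positivity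
  have k2 : ((n : ℝ) ^ n) ^ 2 ≤ n ^ 2 * U ^ 2 := by rw [← mul_pow]; gcongr
  have k3 : (cY' * (y : ℝ) ^ k) * cZ' ^ 2 ≤ r * CZ * (2 * n ^ 2) * Real.exp (4 * y) := by
    have a1 : ((n : ℝ) ^ n) ^ 2 * cY' * ((cY' * (y : ℝ) ^ k) * cZ' ^ 2) ≤
        ((n : ℝ) ^ n) ^ 2 * cY' * (r * CZ * (2 * n ^ 2) * Real.exp (4 * y)) := by
      calc ((n : ℝ) ^ n) ^ 2 * cY' * ((cY' * (y : ℝ) ^ k) * cZ' ^ 2)
          ≤ (n ^ 2 * U ^ 2) * cY' * ((cY' * (y : ℝ) ^ k) * cZ' ^ 2) := by gcongr
        _ = n ^ 2 * (y : ℝ) ^ k * (U * (cY' * cZ')) ^ 2 := by ring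
        _ ≤ n ^ 2 * (y : ℝ) ^ k *
          (r * (cY' * CZ * (2 * (((n : ℝ) ^ n) ^ 2 * Real.exp (4 * y)) / (y : ℝ) ^ k))) := by
            gcongr
        _ = _ := by field_simp
    exact le_of_mul_le_mul_left a1 (by positivity)
  have k4 : Real.exp (-(4 * n / z)) ≤ Real.exp (-(2 * k / y)) * Real.exp (-(2 * l / z)) ^ 2 := by
    rw [← Real.exp_nat_mul, ← Real.exp_add]
    apply Real.exp_le_exp.2
    have e : (n : ℝ) = k + l := by exact_mod_cast hkl.symm
    have : 2 * (k : ℝ) / y ≤ 4 * k / z := by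
      rw [div_le_div_iff₀ (by linarith) (by linarith)]
      have : (0 : ℝ) ≤ k := Nat.cast_nonneg _
      nlinarith
    rw [e, mul_add, add_div]
    push_cast
    have e2 : 4 * (l : ℝ) / z = 2 * (2 * l / z) := by ring
    linarith
  have k5 : CZ * (CY * CZ * Real.exp (-(4 * n / z))) ≤
      CZ * (r * (2 * n ^ 2) * Real.exp (4 * y)) := by
    calc CZ * (CY * CZ * Real.exp (-(4 * n / z)))
        ≤ CZ * (CY * CZ * (Real.exp (-(2 * k / y)) * Real.exp (-(2 * l / z)) ^ 2)) := by gcongr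
      _ = (CY * Real.exp (-(2 * k / y))) * (CZ * Real.exp (-(2 * l / z))) ^ 2 := by ring
      _ ≤ (cY' * (y : ℝ) ^ k) * cZ' ^ 2 := by gcongr
      _ ≤ _ := k3
      _ = _ := by ring
  have k6 := le_of_mul_le_mul_left k5 hCZ
  rw [div_le_iff₀ (by positivity), Real.exp_sub, ← mul_div_assoc, div_le_iff₀ (Real.exp_pos _)]
  exact k6

theorem core {K : Type} [Field K] [CharZero K] {n y z τ : ℕ} (hz : 2 ≤ z) (hzy : z ≤ y)
    (hw : 4 * y ≤ n)
    (ha : ∀ e : ℕ, 1 ≤ e → e ≤ τ → Real.exp (e * (Real.log y - Real.log z) / 2) ≤ 2 * e)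
    (hb : 4 * Real.exp (-Real.log z / 2) * Real.exp (τ * (Real.log y - Real.log z) / 2) ≤ 1)
    (G : Circuit K (Fin n × Fin n × Fin n)) (hG : G.Homogeneous) (hout : G.output = IMM K n n) :
    Real.exp (-(4 * n / z) - 4 * y) / (2 * n ^ 2) ≤
      G.size * (y * (Real.exp (-(((Real.log y - Real.log z) / 4 - 8 / z) * n)) +
        G.size * ((n + 1) * (2 * Real.exp (-Real.log z / 2)) ^ τ))) := by
  classical
  have hz1 : 1 ≤ z := by omega
  have hn : 0 < n := by omega
  have hzR : (2 : ℝ) ≤ z := by exact_mod_cast hz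
  have hzyR : (z : ℝ) ≤ y := by exact_mod_cast hzy
  have hy0 : (0 : ℝ) < y := by linarith
  have hz0 : (0 : ℝ) < z := by linarith
  set M := n ^ 3 * (y + 1) with hMd
  have hM : n * (y + 1) ≤ M := Nat.mul_le_mul_right _ (Nat.le_self_pow (by norm_num) n)
  have hcard : Fintype.card (Fin n × Fin n × Fin n) ≤ M := by
    simp only [Fintype.card_prod, Fintype.card_fin, hMd]
    nlinarith [Nat.zero_le (n ^ 3 * y)]
  obtain ⟨jY⟩ : Nonempty (Fin n × Fin n × Fin n ↪ Fin ((y + 1) * M)) :=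
    Function.Embedding.nonempty_of_card_le (by rw [Fintype.card_fin, add_mul]; omega)
  obtain ⟨jZ⟩ : Nonempty (Fin n × Fin n × Fin n ↪ Fin ((z + 1) * M)) :=
    Function.Embedding.nonempty_of_card_le (by rw [Fintype.card_fin, add_mul]; omega)
  have hlow := mu_IMM_ge (K := K) hz1 hzy hw hM jY jZ
  set L := Real.log y with hL
  set L' := Real.log z with hL'
  have hL0 : 0 ≤ L' := Real.log_nonneg (by linarith)
  have hLL : L' ≤ L := Real.log_le_log hz0 hzyR
  have hq : Real.exp (-L' / 2) ^ 2 = (z : ℝ)⁻¹ := by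
    rw [← Real.exp_nat_mul, show ((2 : ℕ) : ℝ) * (-L' / 2) = -L' by push_cast; ring,
      Real.exp_neg, hL', Real.exp_log hz0]
  set D : ℝ := (((y + 1) * M).choose (y * M) : ℝ) * ((z + 1) * M).choose M with hDd
  have hDpos : 0 < D := by
    have h1 := Nat.choose_pos (n := (y + 1) * M) (k := y * M) (by rw [add_mul]; omega)
    have h2 := Nat.choose_pos (n := (z + 1) * M) (k := M) (by rw [add_mul]; omega)
    rw [hDd]
    positivity
  have hexp : ∀ x : ℕ × ℕ, Real.exp (2 * ww L L' x) = (z : ℝ) ^ x.2 / (y : ℝ) ^ x.1 := by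
    intro x
    rw [show 2 * ww L L' x = x.2 * L' - x.1 * L by unfold ww; ring, Real.exp_sub,
      Real.exp_nat_mul, Real.exp_nat_mul, hL, hL', Real.exp_log hz0, Real.exp_log hy0]
  have hD : ∀ x : ℕ × ℕ, ((Fintype.card (Fin ((y + 1) * M))).choose (y * M + x.1) : ℝ) *
      (Fintype.card (Fin ((z + 1) * M))).choose (M + x.2) ≤ D * Real.exp (2 * ww L L' x) := by
    intro x
    rw [hexp, Fintype.card_fin, Fintype.card_fin, ← mul_div_assoc, le_div_iff₀ (by positivity)]
    have h1 : (((y + 1) * M).choose (y * M + x.1) : ℝ) * (y : ℝ) ^ x.1 ≤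
        ((y + 1) * M).choose (y * M) := by exact_mod_cast binom1 y M x.1
    have h2 : (((z + 1) * M).choose (M + x.2) : ℝ) ≤
        ((z + 1) * M).choose M * (z : ℝ) ^ x.2 := by exact_mod_cast binom2 z M x.2
    calc _ = ((((y + 1) * M).choose (y * M + x.1) : ℝ) * (y : ℝ) ^ x.1) *
          (((z + 1) * M).choose (M + x.2) : ℝ) := by ring
      _ ≤ (((y + 1) * M).choose (y * M) : ℝ) * (((z + 1) * M).choose M * (z : ℝ) ^ x.2) := by
          gcongr
      _ = _ := by rw [hDd]; ring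
  set k := (PQ y z n).1 with hk
  set l := (PQ y z n).2 with hl
  set φ := (rename (emb (fun s : Fin n => tY y z s) jY jZ) :
    MvPolynomial (Fin n × Fin n × Fin n) K →ₐ[K] MvPolynomial _ K) with hφ
  have hE1 : 1 ≤ Real.exp (τ * (L - L') / 2) := Real.one_le_exp (by
    have : 0 ≤ L - L' := by linarith
    positivity)
  have hqpos := Real.exp_pos (-L' / 2)
  have hup := circuit_bound G hG (fun f => mu (y * M) M k l (φ f)) (sg L L')
    (D * Real.exp (ww L L' (k, l))) ((L - L') / 4 - 8 / z) (2 * Real.exp (-L' / 2)) n τ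
    (by positivity)
    (by
      intro ι s c f
      simp only [map_sum, map_smul]
      exact (mu_sum _ _).trans (Finset.sum_le_sum fun i _ => mu_smul _ _))
    (by
      intro s hs
      have := mu_prod (k := k) (l := l) hDpos.le hD (s.map fun x => (φ x.1, x.2)) (by
        intro x hx
        obtain ⟨x', hx', rfl⟩ := Multiset.mem_map.1 hx
        exact (hs x' hx').rename_isHomogeneous)
      simp only [Multiset.map_map, Function.comp_def] at this
      simp only [map_multiset_prod, Multiset.map_map, Function.comp_def]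
      exact this)
    (by
      intro f e hf he
      exact mu_eq_zero_of_homog hf.rename_isHomogeneous (by rw [hk, hl, PQ_sum]; exact he))
    (sg_nonneg L L') (sg_zero L L').le (sg_one hL0 hLL) (by positivity) (by nlinarith)
    (sg_le_succ L L')
    (by
      intro e he
      have := sg_low hL0 hLL (by rw [hq, one_div]; exact inv_anti₀ (by norm_num) hzR) ha hb e he
      rwa [hq, ← div_eq_mul_inv] at this)
  simp only [hout] at hup
  have hww : Real.exp (ww L L' (k, l)) ≤ y := by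
    have h1 : (z : ℝ) ^ l ≤ y * y ^ k := by exact_mod_cast (PQ_inv hz1 hzy n).2
    have h2 : Real.exp (2 * ww L L' (k, l)) ≤ y := by
      rw [hexp, div_le_iff₀ (by positivity)]; exact h1
    rw [two_mul, Real.exp_add] at h2
    nlinarith [Real.exp_pos (ww L L' (k, l))]
  have h := hlow.trans hup
  refine le_of_mul_le_mul_left ?_ hDpos
  calc _ = D * Real.exp (-(4 * n / z) - 4 * y) / (2 * n ^ 2) := by ring
    _ ≤ _ := h
    _ ≤ G.size * (D * y * (Real.exp (-(((L - L') / 4 - 8 / z) * n)) +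
        G.size * ((n + 1) * (2 * Real.exp (-L' / 2)) ^ τ))) := by gcongr
    _ = _ := by ring

end Vale.Agent.P346
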