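import Vale.Agent.P346.Defs

namespace Vale.Agent.P346

/-- The least size of a syntactically homogeneous circuit over `K` computing `IMM K n n`. -/
noncomputable def minSize (K : Type) [Field K] (n : ℕ) : ℕ :=
  sInf {s | ∃ G : Circuit K (Fin n × Fin n × Fin n),
    G.Homogeneous ∧ G.output = IMM K n n ∧ G.size = s}

end Vale.Agent.P346
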