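import Vale.Agent.P346.Lower

namespace Vale.Agent.P346

open Finset MvPolynomial

variable {Y Z : Type} [Fintype Y] [DecidableEq Y] [Fintype Z] [DecidableEq Z]

theorem sum_ite_le_one {α : Type*} (s : Finset α) (p : α → Prop) [DecidablePred p]
    (h : ∀ x ∈ s, ∀ x' ∈ s, p x → p x' → x = x') : ∑ x ∈ s, (if p x then (1 : ℝ) else 0) ≤ 1 := by
  rw [Finset.sum_boole]
  have : (s.filter p).card ≤ 1 := by
    rw [Finset.card_le_one]
    intro x hx x' hx'
    exact h x (mem_filter.1 hx).1 x' (mem_filter.1 hx').1 (mem_filter.1 hx).2 (mem_filter.1 hx').2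
  exact_mod_cast this

theorem disj_of_eq {S E R : Finset Y × Finset Z} (h : ind S + ind E = ind R) :
    Disjoint S.1 E.1 := by
  rw [Finset.disjoint_left]
  intro y h1 h2
  have := DFunLike.congr_fun h (Sum.inl y)
  simp only [Finsupp.add_apply, ind_inl, h1, h2, if_true] at this
  split_ifs at this <;> omega

open Classical in
noncomputable def JJ (S S' E E' : Finset Y × Finset Z) : ℝ :=
  if ind S + ind E = ind S' + ind E' ∧ Disjoint S.1 E.1 then 1 else 0

theorem JJ_nonneg (S S' E E' : Finset Y × Finset Z) : 0 ≤ JJ S S' E E' := by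
  unfold JJ; split_ifs <;> norm_num

theorem sum_R_le {p q : ℕ} (S S' E E' : Finset Y × Finset Z) :
    ∑ R : mid Y Z p q, (if ind S + ind E = ind R.1 then (1 : ℝ) else 0) *
      (if ind S' + ind E' = ind R.1 then (1 : ℝ) else 0) ≤ JJ S S' E E' := by
  unfold JJ
  split_ifs with h
  · refine le_trans (Finset.sum_le_sum fun R _ => ?_)
      (sum_ite_le_one univ (fun R : mid Y Z p q => ind S + ind E = ind R.1)
        (fun x _ x' _ h1 h2 => Subtype.ext (ind_injective (h1.symm.trans h2))))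
    split_ifs <;> norm_num
  · refine le_of_eq (Finset.sum_eq_zero fun R _ => ?_)
    split_ifs with h1 h2
    · exact absurd ⟨h1.trans h2.symm, disj_of_eq h1⟩ h
    all_goals simp

open Classical in
theorem sum_S'_le {a b : ℕ} (S E1 E2 E3 E4 : Finset Y × Finset Z) :
    ∑ S' : mid Y Z a b, JJ S S'.1 E1 E2 * JJ S S'.1 E4 E3 ≤
      if ind E1 + ind E3 = ind E2 + ind E4 ∧ Disjoint S.1 (E1.1 ∪ E4.1) ∧ E2.2 \ E1.2 ⊆ S.2
      then 1 else 0 := by
  split_ifs with h
  · refine le_trans (Finset.sum_le_sum fun R _ => ?_)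
      (sum_ite_le_one univ (fun S' : mid Y Z a b => ind S + ind E1 = ind S'.1 + ind E2)
        (fun x _ x' _ h1 h2 => Subtype.ext (ind_injective
          (add_right_cancel (h1.symm.trans h2)))))
    unfold JJ
    by_cases h1 : ind S + ind E1 = ind R.1 + ind E2
    · rw [if_pos h1]; split_ifs <;> norm_num
    · rw [if_neg h1, if_neg (fun hh => h1 hh.1), zero_mul]
  · refine le_of_eq (Finset.sum_eq_zero fun S' _ => ?_)
    unfold JJ
    split_ifs with h1 h2
    · exfalso
      apply h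
      refine ⟨?_, Finset.disjoint_union_right.2 ⟨h1.2, h2.2⟩, ?_⟩
      · ext v
        have e1 := DFunLike.congr_fun h1.1 v
        have e2 := DFunLike.congr_fun h2.1 v
        simp only [Finsupp.add_apply] at e1 e2 ⊢
        omega
      · intro z hz
        obtain ⟨z1, z2⟩ := mem_sdiff.1 hz
        have e1 := DFunLike.congr_fun h1.1 (Sum.inr z)
        simp only [Finsupp.add_apply, ind_inr, z1, z2, if_true, if_false] at e1
        by_contra hc
        simp only [hc, if_false] at e1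
        omega
    all_goals simp

open Classical in
theorem sum_S_le {a b k : ℕ} {y z : ℝ} (hy : 0 < y) (hz : 0 < z)
    (hA : ∀ i, ((Fintype.card Y - k - i).choose a : ℝ) * y ^ i ≤ (Fintype.card Y - k).choose a)
    (hB : ∀ j, j ≤ b → ((Fintype.card Z - j).choose (b - j) : ℝ) * z ^ j ≤
      (Fintype.card Z).choose b)
    (E1 E2 E4 : Finset Y × Finset Z) (hk : E1.1.card = k) (c : Prop) :
    ∑ S : mid Y Z a b,
      (if c ∧ Disjoint S.1.1 (E1.1 ∪ E4.1) ∧ E2.2 \ E1.2 ⊆ S.1.2 then (1 : ℝ) else 0) ≤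
      (((Fintype.card Y - k).choose a : ℝ) * (Fintype.card Z).choose b) *
        (if c then y⁻¹ ^ (E4.1 \ E1.1).card * z⁻¹ ^ (E2.2 \ E1.2).card else 0) := by
  by_cases hc : c
  swap
  · simp [hc]
  simp only [hc, true_and, if_true]
  rw [Finset.sum_coe_sort (mid Y Z a b)
    (fun S => if Disjoint S.1 (E1.1 ∪ E4.1) ∧ E2.2 \ E1.2 ⊆ S.2 then (1 : ℝ) else 0),
    Finset.sum_boole, mid,
    filter_product (fun A : Finset Y => Disjoint A (E1.1 ∪ E4.1))
      (fun B : Finset Z => E2.2 \ E1.2 ⊆ B), card_product, card_disj]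
  have e1 : (E1.1 ∪ E4.1).card = k + (E4.1 \ E1.1).card := by
    rw [← hk, ← Finset.card_union_of_disjoint Finset.disjoint_sdiff, union_sdiff_self_eq_union]
  rw [e1, ← Nat.sub_sub]
  have h1 := hA (E4.1 \ E1.1).card
  have h2 : (((powersetCard b (univ : Finset Z)).filter (fun B => E2.2 \ E1.2 ⊆ B)).card : ℝ) *
      z ^ (E2.2 \ E1.2).card ≤ (Fintype.card Z).choose b := by
    by_cases hj : (E2.2 \ E1.2).card ≤ b
    · rw [card_filter_powersetCard_subset _ _ _ (subset_univ _) hj, card_univ]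
      exact hB _ hj
    · rw [Finset.card_eq_zero.2, Nat.cast_zero, zero_mul]
      · positivity
      · rw [Finset.filter_eq_empty_iff]
        intro B hB hs
        exact hj ((card_le_card hs).trans (mem_powersetCard.1 hB).2.le)
  rw [← le_div_iff₀ (by positivity)] at h1 h2
  push_cast
  calc _ ≤ (((Fintype.card Y - k).choose a : ℝ) / y ^ (E4.1 \ E1.1).card) *
      (((Fintype.card Z).choose b : ℝ) / z ^ (E2.2 \ E1.2).card) := by gcongr
    _ = _ := by rw [inv_pow, inv_pow]; field_simp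

variable {w d : ℕ} (jY : Fin d × Fin w × Fin w ↪ Y) (jZ : Fin d × Fin w × Fin w ↪ Z)

theorem ind_emb (t : Fin d → Prop) [DecidablePred t] (u : Fin (d + 1) → Fin w)
    (v : Fin d × Fin w × Fin w) :
    ind (eS t jY jZ u) (emb t jY jZ v) = if ed u v.1 = v then 1 else 0 := by
  unfold emb
  by_cases h : t v.1
  · rw [if_pos h, ind_inl]; simp [mem_eS1, h]
  · rw [if_neg h, ind_inr]; simp [mem_eS2, h]

theorem step_compat (t : Fin d → Prop) [DecidablePred t] {u1 u2 u3 u4 : Fin (d + 1) → Fin w}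
    (h : ind (eS t jY jZ u1) + ind (eS t jY jZ u3) = ind (eS t jY jZ u2) + ind (eS t jY jZ u4))
    (s : Fin d) : (ed u1 s = ed u2 s ∧ ed u3 s = ed u4 s) ∨
      (ed u1 s = ed u4 s ∧ ed u3 s = ed u2 s) := by
  have key : ∀ u : Fin (d + 1) → Fin w, (if ed u1 s = ed u s then 1 else 0) +
      (if ed u3 s = ed u s then 1 else 0) = (if ed u2 s = ed u s then 1 else 0) +
      (if ed u4 s = ed u s then 1 else 0 : ℕ) := by
    intro u
    have := DFunLike.congr_fun h (emb t jY jZ (ed u s))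
    simp only [Finsupp.add_apply, ind_emb] at this
    exact this
  have k1 := key u1
  have k3 := key u3
  have k2 := key u2
  generalize ed u1 s = e1 at *
  generalize ed u2 s = e2 at *
  generalize ed u3 s = e3 at *
  generalize ed u4 s = e4 at *
  clear key
  by_cases a : e2 = e1
  · subst a
    by_cases b : e4 = e3
    · exact Or.inl ⟨rfl, b.symm⟩
    · exfalso
      simp only [b, if_true, if_false] at k3
      omega
  · by_cases b : e4 = e1
    · subst b
      by_cases c : e3 = e2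
      · exact Or.inr ⟨rfl, c⟩
      · exfalso
        simp only [c, if_true, if_false] at k2
        omega
    · exfalso
      simp only [a, b, if_true, if_false] at k1
      omega

theorem weight_le {y z : ℕ} (hz : 1 ≤ z) (hzy : z ≤ y) {u1 u2 u3 u4 : Fin (d + 1) → Fin w}
    (h : ind (eS (fun s : Fin d => tY y z s) jY jZ u1) +
        ind (eS (fun s : Fin d => tY y z s) jY jZ u3) =
      ind (eS (fun s : Fin d => tY y z s) jY jZ u2) +
        ind (eS (fun s : Fin d => tY y z s) jY jZ u4)) :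
    (y : ℝ)⁻¹ ^ ((eS (fun s : Fin d => tY y z s) jY jZ u4).1 \
        (eS (fun s : Fin d => tY y z s) jY jZ u1).1).card *
      (z : ℝ)⁻¹ ^ ((eS (fun s : Fin d => tY y z s) jY jZ u2).2 \
        (eS (fun s : Fin d => tY y z s) jY jZ u1).2).card ≤
      ∏ s : Fin d, om (cY y z s) (cZ y z s)
        (u1 s.castSucc, u2 s.castSucc, u3 s.castSucc, u4 s.castSucc)
        (u1 s.succ, u2 s.succ, u3 s.succ, u4 s.succ) := by
  have hzR : (1 : ℝ) ≤ z := by exact_mod_cast hz
  have hyR : (1 : ℝ) ≤ y := by exact_mod_cast hz.trans hzy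
  set t : Fin d → Prop := fun s => tY y z s with ht
  have c1 : (univ.filter (fun s => t s ∧ ed u4 s ≠ ed u1 s)).card ≤
      ((eS t jY jZ u4).1 \ (eS t jY jZ u1).1).card := by
    refine Finset.card_le_card_of_injOn (fun s => jY (ed u4 s)) (fun s hs => ?_)
      (fun s _ s' _ h => ed_inj (jY.injective h))
    have hs' := (mem_filter.1 hs).2
    simp only [coe_sdiff, Set.mem_diff, mem_coe, mem_eS1]
    exact ⟨⟨hs'.1, rfl⟩, fun hh => hs'.2 hh.2.symm⟩
  have c2 : (univ.filter (fun s => ¬ t s ∧ ed u2 s ≠ ed u1 s)).card ≤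
      ((eS t jY jZ u2).2 \ (eS t jY jZ u1).2).card := by
    refine Finset.card_le_card_of_injOn (fun s => jZ (ed u2 s)) (fun s hs => ?_)
      (fun s _ s' _ h => ed_inj (jZ.injective h))
    have hs' := (mem_filter.1 hs).2
    simp only [coe_sdiff, Set.mem_diff, mem_coe, mem_eS2]
    exact ⟨⟨hs'.1, rfl⟩, fun hh => hs'.2 hh.2.symm⟩
  have p1 := pow_le_pow_of_le_one (a := (y : ℝ)⁻¹) (by positivity) (inv_le_one_of_one_le₀ hyR) c1
  have p2 := pow_le_pow_of_le_one (a := (z : ℝ)⁻¹) (by positivity) (inv_le_one_of_one_le₀ hzR) c2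
  refine le_trans (mul_le_mul p1 p2 (by positivity) (by positivity)) ?_
  rw [← Finset.prod_const, ← Finset.prod_const, Finset.prod_filter, Finset.prod_filter,
    ← Finset.prod_mul_distrib]
  refine Finset.prod_le_prod (fun s _ => by split_ifs <;> positivity) fun s _ => ?_
  have hcY := cY_nonneg y z s
  have hcZ := cZ_nonneg y z s
  rcases step_compat jY jZ t h s with ⟨e1, e2⟩ | ⟨e1, e2⟩
  · rw [if_neg (show ¬ (¬ t s ∧ ed u2 s ≠ ed u1 s) from fun hh => hh.2 e1.symm), mul_one]
    simp only [ed, Prod.mk.injEq, true_and] at e1 e2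
    unfold om
    refine le_add_of_le_of_nonneg ?_ (by split_ifs <;> positivity)
    simp only [ed, ne_eq, Prod.mk.injEq, true_and, cY, ht]
    rw [if_pos (And.intro e1.1 (And.intro e2.1 (And.intro e1.2 e2.2)))]
    split_ifs <;> first | exact le_rfl | tauto
  · rw [if_neg (show ¬ (t s ∧ ed u4 s ≠ ed u1 s) from fun hh => hh.2 e1.symm), one_mul]
    simp only [ed, Prod.mk.injEq, true_and] at e1 e2
    unfold om
    refine le_add_of_nonneg_of_le (by split_ifs <;> positivity) ?_
    simp only [ed, ne_eq, Prod.mk.injEq, true_and, cZ, ht]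
    rw [if_pos (And.intro e1.1 (And.intro e2.1 (And.intro e1.2 e2.2)))]
    split_ifs <;> first | exact le_rfl | tauto

theorem sum_paths4 (o : Fin w) (ho : o.val = 0)
    (F : (Fin (d + 1) → Fin w × Fin w × Fin w × Fin w) → ℝ) (hF : ∀ p, 0 ≤ F p) :
    ∑ x ∈ paths w d ×ˢ paths w d, ∑ x' ∈ paths w d ×ˢ paths w d,
      F (fun i => (x.1 i, x.2 i, x'.2 i, x'.1 i)) ≤
    ∑ p : Fin (d + 1) → Fin w × Fin w × Fin w × Fin w,
      (if p 0 = (o, o, o, o) ∧ p (Fin.last d) = (o, o, o, o) then F p else 0) := by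
  rw [← Finset.sum_product', ← Finset.sum_filter]
  set g : ((Fin (d + 1) → Fin w) × (Fin (d + 1) → Fin w)) ×
      ((Fin (d + 1) → Fin w) × (Fin (d + 1) → Fin w)) →
      (Fin (d + 1) → Fin w × Fin w × Fin w × Fin w) :=
    fun x i => (x.1.1 i, x.1.2 i, x.2.2 i, x.2.1 i) with hg
  have hinj : Function.Injective g := by
    rintro ⟨⟨a, b⟩, ⟨c, e⟩⟩ ⟨⟨a', b'⟩, ⟨c', e'⟩⟩ h
    have := fun i => congrFun h i
    simp only [hg, Prod.mk.injEq] at this
    simp only [Prod.mk.injEq]
    exact ⟨⟨funext fun i => (this i).1, funext fun i => (this i).2.1⟩,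
      funext fun i => (this i).2.2.2, funext fun i => (this i).2.2.1⟩
  change ∑ x ∈ _, F (g x) ≤ _
  rw [← Finset.sum_image (f := F) (fun a _ b _ h => hinj h)]
  refine Finset.sum_le_sum_of_subset_of_nonneg ?_ (fun p _ _ => hF p)
  intro p hp
  obtain ⟨x, hx, rfl⟩ := mem_image.1 hp
  simp only [paths, mem_product, mem_filter, mem_univ, true_and] at hx
  simp only [mem_filter, mem_univ, true_and, hg, Prod.mk.injEq, Fin.ext_iff, ho]
  tauto

theorem t4_le {y z : ℕ} (hz : 1 ≤ z) (hzy : z ≤ y) (hw : 4 * y ≤ w) {a b : ℕ}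
    (hA : ∀ i, ((Fintype.card Y - (PQ y z d).1 - i).choose a : ℝ) * (y : ℝ) ^ i ≤
      (Fintype.card Y - (PQ y z d).1).choose a)
    (hB : ∀ j, j ≤ b → ((Fintype.card Z - j).choose (b - j) : ℝ) * (z : ℝ) ^ j ≤
      (Fintype.card Z).choose b) :
    ∑ S, ∑ S', (∑ R, (natMat (fun s : Fin d => tY y z s) jY jZ a b (PQ y z d).1 (PQ y z d).2
        R S : ℝ) * natMat (fun s : Fin d => tY y z s) jY jZ a b (PQ y z d).1 (PQ y z d).2 R S') *
      (∑ R, (natMat (fun s : Fin d => tY y z s) jY jZ a b (PQ y z d).1 (PQ y z d).2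
        R S : ℝ) * natMat (fun s : Fin d => tY y z s) jY jZ a b (PQ y z d).1 (PQ y z d).2 R S') ≤
      (((Fintype.card Y - (PQ y z d).1).choose a : ℝ) * (Fintype.card Z).choose b) *
        (2 * ((w : ℝ) ^ 2 + 4 * y * w) ^ d / (y : ℝ) ^ (PQ y z d).1) := by
  classical
  have hzR : (1 : ℝ) ≤ z := by exact_mod_cast hz
  have hyR : (1 : ℝ) ≤ y := by exact_mod_cast hz.trans hzy
  have hw0 : 0 < w := by omega
  set t : Fin d → Prop := fun s => tY y z s with ht
  set k := (PQ y z d).1
  set l := (PQ y z d).2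
  set E := eS t jY jZ with hE
  have h1 : ∀ S S' : mid Y Z a b,
      (∑ R, (natMat t jY jZ a b k l R S : ℝ) * natMat t jY jZ a b k l R S') ≤
      ∑ x ∈ paths w d ×ˢ paths w d, JJ S.1 S'.1 (E x.1) (E x.2) := by
    intro S S'
    calc _ = ∑ R : mid Y Z (a + k) (b + l), ∑ x ∈ paths w d ×ˢ paths w d,
          (if ind S.1 + ind (E x.1) = ind R.1 then (1 : ℝ) else 0) *
          (if ind S'.1 + ind (E x.2) = ind R.1 then (1 : ℝ) else 0) := by
          refine Finset.sum_congr rfl fun R _ => ?_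
          simp only [natMat, Nat.cast_sum, Nat.cast_ite, Nat.cast_one, Nat.cast_zero]
          rw [Finset.sum_mul_sum, Finset.sum_product]
      _ ≤ _ := by
          rw [Finset.sum_comm]
          exact Finset.sum_le_sum fun x _ => sum_R_le S.1 S'.1 (E x.1) (E x.2)
  have h0 : ∀ S S' : mid Y Z a b,
      0 ≤ (∑ R, (natMat t jY jZ a b k l R S : ℝ) * natMat t jY jZ a b k l R S') :=
    fun S S' => by positivity
  have hq := quad_bound (W := Fin w) hz hzy (by simpa using hw) d ⟨0, hw0⟩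
  rw [Fintype.card_fin] at hq
  have hp := sum_paths4 (d := d) ⟨0, hw0⟩ rfl
    (fun p => ∏ t : Fin d, om (cY y z t) (cZ y z t) (p t.castSucc) (p t.succ))
    (fun p => Finset.prod_nonneg fun t _ => om_nonneg (cY_nonneg _ _ _) (cZ_nonneg _ _ _) _ _)
  calc _ ≤ ∑ S : mid Y Z a b, ∑ S' : mid Y Z a b,
        (∑ x ∈ paths w d ×ˢ paths w d, JJ S.1 S'.1 (E x.1) (E x.2)) *
        (∑ x ∈ paths w d ×ˢ paths w d, JJ S.1 S'.1 (E x.1) (E x.2)) :=
        Finset.sum_le_sum fun S _ => Finset.sum_le_sum fun S' _ =>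
          mul_self_le_mul_self (h0 S S') (h1 S S')
    _ = ∑ x ∈ paths w d ×ˢ paths w d, ∑ x' ∈ paths w d ×ˢ paths w d,
        ∑ S : mid Y Z a b, ∑ S' : mid Y Z a b,
          JJ S.1 S'.1 (E x.1) (E x.2) * JJ S.1 S'.1 (E x'.1) (E x'.2) := by
        simp only [Finset.sum_mul_sum]
        simp only [Finset.sum_comm (s := (univ : Finset (mid Y Z a b)))
          (t := paths w d ×ˢ paths w d)]
    _ ≤ ∑ x ∈ paths w d ×ˢ paths w d, ∑ x' ∈ paths w d ×ˢ paths w d,
        (((Fintype.card Y - k).choose a : ℝ) * (Fintype.card Z).choose b) *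
        ∏ s : Fin d, om (cY y z s) (cZ y z s)
          (x.1 s.castSucc, x.2 s.castSucc, x'.2 s.castSucc, x'.1 s.castSucc)
          (x.1 s.succ, x.2 s.succ, x'.2 s.succ, x'.1 s.succ) := by
        refine Finset.sum_le_sum fun x _ => Finset.sum_le_sum fun x' _ => ?_
        refine le_trans (Finset.sum_le_sum fun S _ =>
          sum_S'_le S.1 (E x.1) (E x.2) (E x'.2) (E x'.1)) ?_
        have := sum_S_le (by linarith) (by linarith) hA hB (E x.1) (E x.2) (E x'.1)
          ((card_eS1 t jY jZ x.1).trans (PQ_card y z d).1)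
          (ind (E x.1) + ind (E x'.2) = ind (E x.2) + ind (E x'.1))
        refine le_trans (le_of_eq (Finset.sum_congr rfl fun S _ => by congr)) (this.trans ?_)
        gcongr
        split_ifs with hc
        · exact weight_le jY jZ hz hzy hc
        · exact Finset.prod_nonneg fun t _ => om_nonneg (cY_nonneg _ _ _) (cZ_nonneg _ _ _) _ _
    _ ≤ _ := by
        simp only [← Finset.mul_sum]
        gcongr
        exact hp.trans hq

end Vale.Agent.P346
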