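import Mathlib

namespace Vale.Agent.P346

open Matrix

theorem rank_real_le {K : Type} [Field K] [CharZero K] {m n : Type} [Fintype m] [Fintype n]
    (M : Matrix m n ℕ) :
    (M.map (fun x => (x : ℝ))).rank ≤ (M.map (fun x => (x : K))).rank := by
  classical
  rw [rank_eq_finrank_span_cols, rank_eq_finrank_span_cols]
  obtain ⟨κ, a, ha, hspan, hli⟩ :=
    exists_linearIndependent' ℝ (M.map (fun x => (x : ℝ))).col
  haveI : Finite κ := Finite.of_injective a ha
  letI : Fintype κ := Fintype.ofFinite κ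
  rw [← hspan, finrank_span_eq_card hli]
  have h1 : LinearIndependent ℤ (fun i : κ => fun r : m => (M r (a i) : ℤ)) := by
    rw [← linearIndependent_algebraMap_comp_iff (S := ℝ)]
    have e : (fun i : κ => ⇑(algebraMap ℤ ℝ) ∘ fun r : m => (M r (a i) : ℤ)) =
        (M.map (fun x => (x : ℝ))).col ∘ a := by
      ext i r
      simp only [Function.comp, eq_intCast, Int.cast_natCast]
      rfl
    rw [e]
    exact hli
  have h2 : LinearIndependent K ((M.map (fun x => (x : K))).col ∘ a) := by
    have := (linearIndependent_algebraMap_comp_iff (S := K)).2 h1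
    have e : (fun i : κ => ⇑(algebraMap ℤ K) ∘ fun r : m => (M r (a i) : ℤ)) =
        (M.map (fun x => (x : K))).col ∘ a := by
      ext i r
      simp only [Function.comp, eq_intCast, Int.cast_natCast]
      rfl
    rw [e] at this
    exact this
  rw [← finrank_span_eq_card h2]
  apply Submodule.finrank_mono
  apply Submodule.span_mono
  rintro _ ⟨i, rfl⟩
  exact ⟨a i, rfl⟩

theorem trace_sq_le {n : Type} [Fintype n] [DecidableEq n] (B : Matrix n n ℝ)
    (hB : B.IsHermitian) : B.trace ^ 2 ≤ B.rank * (B * B).trace := by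
  have h1 : B.trace = ∑ i, hB.eigenvalues i := by
    simpa using hB.trace_eq_sum_eigenvalues
  have h2 : (B * B).trace = ∑ i, hB.eigenvalues i ^ 2 := by
    have := hB.spectral_theorem
    set D : Matrix n n ℝ := diagonal (RCLike.ofReal ∘ hB.eigenvalues)
    have h3 : B * B = Unitary.conjStarAlgAut ℝ _ hB.eigenvectorUnitary (D * D) := by
      rw [map_mul, ← this]
    rw [h3, Unitary.conjStarAlgAut_apply, trace_mul_comm, ← mul_assoc]
    simp [D, diagonal_mul_diagonal, sq]
  rw [h1, h2, hB.rank_eq_card_non_zero_eigs]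
  have h4 : ∑ i, hB.eigenvalues i =
      ∑ i ∈ Finset.univ.filter (fun i => hB.eigenvalues i ≠ 0), hB.eigenvalues i := by
    rw [Finset.sum_filter_ne_zero]
  rw [h4, Fintype.card_subtype]
  refine (sq_sum_le_card_mul_sum_sq).trans ?_
  gcongr
  exact Finset.filter_subset _ _

theorem sq_le_rank_mul {K : Type} [Field K] [CharZero K] {m n : Type} [Fintype m] [Fintype n]
    (M : Matrix m n ℕ) :
    (∑ S, ∑ R, (M R S : ℝ)) ^ 2 ≤ ((M.map (fun x => (x : K))).rank : ℝ) *
      ∑ S, ∑ S', (∑ R, (M R S : ℝ) * M R S') * (∑ R, (M R S : ℝ) * M R S') := by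
  classical
  set A : Matrix m n ℝ := M.map (fun x => (x : ℝ)) with hA
  have hB : (Aᵀ * A).IsHermitian := by
    have := isHermitian_conjTranspose_mul_self A
    simpa using this
  have h := trace_sq_le _ hB
  have hr : ((Aᵀ * A).rank : ℝ) ≤ ((M.map (fun x => (x : K))).rank : ℝ) := by
    exact_mod_cast (rank_mul_le_right _ _).trans (rank_real_le M)
  have ht : (Aᵀ * A * (Aᵀ * A)).trace =
      ∑ S, ∑ S', (∑ R, (M R S : ℝ) * M R S') * (∑ R, (M R S : ℝ) * M R S') := by
    simp only [trace, diag, mul_apply, transpose_apply, hA, map_apply]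
    refine Finset.sum_congr rfl fun S _ => Finset.sum_congr rfl fun S' _ => ?_
    congr 1
    exact Finset.sum_congr rfl fun R _ => mul_comm _ _
  have ht1 : ∑ S, ∑ R, (M R S : ℝ) ≤ (Aᵀ * A).trace := by
    simp only [trace, diag, mul_apply, transpose_apply, hA, map_apply]
    refine Finset.sum_le_sum fun S _ => Finset.sum_le_sum fun R _ => ?_
    exact_mod_cast Nat.le_mul_self (M R S)
  have h0 : 0 ≤ ∑ S, ∑ R, (M R S : ℝ) := by positivity
  have h5 : 0 ≤ (Aᵀ * A * (Aᵀ * A)).trace := by
    rw [ht]; exact Finset.sum_nonneg fun S _ => Finset.sum_nonneg fun S' _ => mul_self_nonneg _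
  calc _ ≤ (Aᵀ * A).trace ^ 2 := by gcongr
    _ ≤ _ := h
    _ ≤ _ := by rw [← ht]; gcongr

theorem rank_add_le' {K : Type} [Field K] {m n : Type} [Fintype m] [Fintype n]
    (A B : Matrix m n K) : (A + B).rank ≤ A.rank + B.rank := by
  unfold Matrix.rank
  rw [mulVecLin_add]
  refine le_trans (Submodule.finrank_mono ?_)
    (Submodule.finrank_add_le_finrank_add_finrank (LinearMap.range A.mulVecLin)
      (LinearMap.range B.mulVecLin))
  rintro _ ⟨x, rfl⟩
  exact Submodule.add_mem_sup ⟨x, rfl⟩ ⟨x, rfl⟩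

theorem rank_smul_le' {K : Type} [Field K] {m n : Type} [Fintype m] [Fintype n]
    (c : K) (A : Matrix m n K) : (c • A).rank ≤ A.rank := by
  unfold Matrix.rank
  refine Submodule.finrank_mono ?_
  rintro _ ⟨x, rfl⟩
  exact ⟨c • x, by simp [mulVec_smul, smul_mulVec]⟩

end Vale.Agent.P346
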