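import Mathlib

namespace Vale.Agent.P346

open Finset

theorem transfer {Q : Type} [Fintype Q] [DecidableEq Q] (ω : ℕ → Q → Q → ℝ) (h : ℕ → Q → ℝ)
    (hω : ∀ s q q', 0 ≤ ω s q q')
    (hs : ∀ s q, ∑ q', ω s q q' * h (s + 1) q' ≤ h s q) (m : ℕ) :
    ∀ (s0 : ℕ) (q : Q), ∑ p : Fin (m + 1) → Q, (if p 0 = q then
      (∏ t : Fin m, ω (s0 + t) (p t.castSucc) (p t.succ)) * h (s0 + m) (p (Fin.last m)) else 0)
      ≤ h s0 q := by
  induction m with
  | zero =>
    intro s0 q
    rw [Finset.sum_eq_single (fun _ => q)]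
    · simp
    · intro p _ hp
      rw [if_neg]
      intro h0
      apply hp
      ext i
      rw [Fin.fin_one_eq_zero i, h0]
    · simp
  | succ m ih =>
    intro s0 q
    rw [← (Fin.consEquiv (fun _ : Fin (m + 1 + 1) => Q)).sum_comp, Fintype.sum_prod_type]
    simp only [Fin.consEquiv, Equiv.coe_fn_mk, Fin.cons_zero]
    rw [Finset.sum_comm]
    simp only [Finset.sum_ite_eq', Finset.mem_univ, if_true]
    refine le_trans ?_ (hs s0 q)
    have e : ∀ p : Fin (m + 1) → Q,
        (∏ t : Fin (m + 1), ω (s0 + t) ((Fin.cons q p : Fin (m + 1 + 1) → Q) t.castSucc)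
          ((Fin.cons q p : Fin (m + 1 + 1) → Q) t.succ)) *
          h (s0 + (m + 1)) ((Fin.cons q p : Fin (m + 1 + 1) → Q) (Fin.last (m + 1))) =
        ∑ q', ω s0 q q' * (if p 0 = q' then
          (∏ t : Fin m, ω (s0 + 1 + t) (p t.castSucc) (p t.succ)) *
            h (s0 + 1 + m) (p (Fin.last m)) else 0) := by
      intro p
      simp only [mul_ite, mul_zero, Finset.sum_ite_eq, Finset.mem_univ, if_true]
      rw [Fin.prod_univ_succ]
      simp only [Fin.castSucc_zero, Fin.cons_zero, Fin.cons_succ, Fin.val_zero, add_zero,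
        Fin.val_succ, Fin.cons_last]
      have : ∀ t : Fin m, (Fin.cons q p : Fin (m + 1 + 1) → Q) t.succ.castSucc = p t.castSucc := by
        intro t
        rw [← Fin.succ_castSucc, Fin.cons_succ]
      simp only [this]
      rw [mul_assoc, show s0 + (m + 1) = s0 + 1 + m by ring]
      congr 2
      refine Finset.prod_congr rfl fun t _ => ?_
      rw [show s0 + (↑t + 1) = s0 + 1 + t by ring]
    simp only [e]
    rw [Finset.sum_comm]
    refine Finset.sum_le_sum fun q' _ => ?_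
    rw [← Finset.mul_sum]
    exact mul_le_mul_of_nonneg_left (ih (s0 + 1) q') (hω _ _ _)

variable {W : Type} [Fintype W] [DecidableEq W]

noncomputable def om (cY cZ : ℝ) (q x : W × W × W × W) : ℝ :=
  (if q.1 = q.2.1 ∧ q.2.2.1 = q.2.2.2 ∧ x.1 = x.2.1 ∧ x.2.2.1 = x.2.2.2 then
    (if q.2.2.2 = q.1 ∧ x.2.2.2 = x.1 then 1 else cY) else 0) +
  (if q.1 = q.2.2.2 ∧ q.2.2.1 = q.2.1 ∧ x.1 = x.2.2.2 ∧ x.2.2.1 = x.2.1 then
    (if q.2.1 = q.1 ∧ x.2.1 = x.1 then 1 else cZ) else 0)

noncomputable def pot (u v : ℝ) (q : W × W × W × W) : ℝ :=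
  if q.1 = q.2.1 ∧ q.2.2.1 = q.2.2.2 then (if q.2.2.2 = q.1 then 2 * (u + v) else u) else v

omit [Fintype W] in
theorem om_nonneg {cY cZ : ℝ} (h1 : 0 ≤ cY) (h2 : 0 ≤ cZ) (q x : W × W × W × W) :
    0 ≤ om cY cZ q x := by
  unfold om
  split_ifs <;> positivity

theorem sum_diag_le (A B : ℝ) (hB : 0 ≤ B) :
    ∑ x : W, ∑ x' : W, (if x' = x then A else B) ≤
      Fintype.card W * A + (Fintype.card W : ℝ) ^ 2 * B := by
  have : ∀ x : W, ∑ x' : W, (if x' = x then A else B) ≤ A + Fintype.card W * B := by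
    intro x
    calc _ ≤ ∑ x' : W, ((if x' = x then A else 0) + B) :=
          Finset.sum_le_sum fun x' _ => by split_ifs <;> linarith
      _ = _ := by simp [Finset.sum_add_distrib]
  calc _ ≤ ∑ x : W, (A + Fintype.card W * B) := Finset.sum_le_sum fun x _ => this x
    _ = _ := by simp; ring

theorem sum_om (cY cZ u v : ℝ) (q : W × W × W × W) :
    ∑ x, om cY cZ q x * pot u v x =
      (if q.1 = q.2.1 ∧ q.2.2.1 = q.2.2.2 then ∑ x : W, ∑ x' : W,
        (if x' = x then (if q.2.2.2 = q.1 then 1 else cY) * (2 * (u + v)) else cY * u) else 0) +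
      (if q.1 = q.2.2.2 ∧ q.2.2.1 = q.2.1 then ∑ x : W, ∑ x' : W,
        (if x' = x then (if q.2.1 = q.1 then 1 else cZ) * (2 * (u + v)) else cZ * v) else 0) := by
  simp only [om, add_mul, Finset.sum_add_distrib]
  congr 1
  · split_ifs with h h'
    all_goals simp only [Fintype.sum_prod_type]
    · refine Finset.sum_congr rfl fun x1 _ => ?_
      rw [Finset.sum_eq_single x1 (fun b _ hb => by simp [hb.symm]) (by simp)]
      refine Finset.sum_congr rfl fun x3 _ => ?_
      rw [Finset.sum_eq_single x3 (fun b _ hb => by simp [hb.symm]) (by simp)]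
      by_cases hx : x3 = x1 <;> simp [h, h', hx, pot]
    · refine Finset.sum_congr rfl fun x1 _ => ?_
      rw [Finset.sum_eq_single x1 (fun b _ hb => by simp [hb.symm]) (by simp)]
      refine Finset.sum_congr rfl fun x3 _ => ?_
      rw [Finset.sum_eq_single x3 (fun b _ hb => by simp [hb.symm]) (by simp)]
      have h'' : ¬ q.2.2.2 = q.2.1 := fun hh => h' (hh.trans h.1.symm)
      by_cases hx : x3 = x1 <;> simp [h, h'', hx, pot]
    · refine Finset.sum_eq_zero fun x1 _ => Finset.sum_eq_zero fun x2 _ =>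
        Finset.sum_eq_zero fun x3 _ => Finset.sum_eq_zero fun x4 _ => ?_
      rw [if_neg (fun hh => h ⟨hh.1, hh.2.1⟩), zero_mul]
  · split_ifs with h h'
    all_goals simp only [Fintype.sum_prod_type]
    · refine Finset.sum_congr rfl fun x1 _ => Finset.sum_congr rfl fun x2 _ => ?_
      rw [Finset.sum_eq_single x2 (fun b _ hb => by simp [hb]) (by simp)]
      rw [Finset.sum_eq_single x1 (fun b _ hb => by simp [hb.symm]) (by simp)]
      by_cases hx : x2 = x1
      · simp [h, h', hx, pot]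
      · simp [h, h', hx, pot, Ne.symm hx]
    · refine Finset.sum_congr rfl fun x1 _ => Finset.sum_congr rfl fun x2 _ => ?_
      rw [Finset.sum_eq_single x2 (fun b _ hb => by simp [hb]) (by simp)]
      rw [Finset.sum_eq_single x1 (fun b _ hb => by simp [hb.symm]) (by simp)]
      have h'' : ¬ q.2.1 = q.2.2.2 := fun hh => h' (hh.trans h.1.symm)
      by_cases hx : x2 = x1
      · simp [h, h'', hx, pot]
      · simp [h, h'', hx, pot, Ne.symm hx]
    · refine Finset.sum_eq_zero fun x1 _ => Finset.sum_eq_zero fun x2 _ =>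
        Finset.sum_eq_zero fun x3 _ => Finset.sum_eq_zero fun x4 _ => ?_
      rw [if_neg (fun hh => h ⟨hh.1, hh.2.1⟩), zero_mul]

theorem super {cY cZ u v u' v' y : ℝ} (hcY : 0 ≤ cY) (hcZ : 0 ≤ cZ) (hu : 0 ≤ u) (hv : 0 ≤ v)
    (hy : 0 ≤ y) (eu : cY * u' = u) (ev : cZ * v' = v) (h1 : u' + v' ≤ 2 * y * u')
    (h2 : u' + v' ≤ 2 * y * v') (h3 : u' + v' ≤ y * (u + v))
    (hw : 4 * y ≤ Fintype.card W) (q : W × W × W × W) :
    ∑ x, om cY cZ q x * pot u' v' x ≤
      ((Fintype.card W : ℝ) ^ 2 + 4 * y * Fintype.card W) * pot u v q := by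
  rw [sum_om]
  set w : ℝ := (Fintype.card W : ℝ) with hwd
  have hw0 : 0 ≤ w := Nat.cast_nonneg _
  have k1 := fun A => sum_diag_le (W := W) A (cY * u') (by rw [eu]; exact hu)
  have k2 := fun A => sum_diag_le (W := W) A (cZ * v') (by rw [ev]; exact hv)
  rw [← hwd] at k1 k2
  have g1 : cY * (2 * (u' + v')) ≤ 4 * y * u := by
    rw [← eu]; nlinarith [mul_le_mul_of_nonneg_left h1 hcY]
  have g2 : cZ * (2 * (u' + v')) ≤ 4 * y * v := by
    rw [← ev]; nlinarith [mul_le_mul_of_nonneg_left h2 hcZ]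
  obtain ⟨a1, a2, a3, a4⟩ := q
  simp only [pot]
  by_cases c1 : a1 = a2 ∧ a3 = a4
  · obtain ⟨rfl, rfl⟩ := c1
    by_cases c2 : a3 = a1
    · subst c2
      simp only [and_self, if_true, one_mul]
      have k1' := k1 (2 * (u' + v'))
      have k2' := k2 (2 * (u' + v'))
      rw [eu] at k1' ⊢
      rw [ev] at k2' ⊢
      have g3 : w * (u' + v') ≤ w * (y * (u + v)) := mul_le_mul_of_nonneg_left h3 hw0
      have g4 : 0 ≤ w * (y * (u + v)) := by positivity
      have g5 : 0 ≤ w ^ 2 * (u + v) := by positivity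
      nlinarith
    · simp only [and_self, if_true, c2, if_false, Ne.symm c2, false_and, add_zero]
      refine (k1 _).trans ?_
      rw [eu]
      nlinarith [mul_le_mul_of_nonneg_left g1 hw0]
  · rw [if_neg c1, if_neg c1, zero_add]
    by_cases c2 : a1 = a4 ∧ a3 = a2
    · obtain ⟨rfl, rfl⟩ := c2
      have c3 : ¬ a3 = a1 := fun h => c1 ⟨h.symm, h⟩
      simp only [and_self, if_true, c3, if_false]
      refine (k2 _).trans ?_
      rw [ev]
      nlinarith [mul_le_mul_of_nonneg_left g2 hw0]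
    · rw [if_neg c2]
      positivity

end Vale.Agent.P346
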