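import Vale.Agent.P346.Struct

namespace Vale.Agent.P346

open Finset MvPolynomial

section paths

variable {R W : Type} [CommRing R] [Fintype W] [DecidableEq W]

def Pm (M : ℕ → Matrix W W R) : ℕ → ℕ → Matrix W W R
  | _, 0 => 1
  | s, d + 1 => M s * Pm M (s + 1) d

theorem Pm_add (M : ℕ → Matrix W W R) (d e : ℕ) :
    ∀ s, Pm M s (d + e) = Pm M s d * Pm M (s + d) e := by
  induction d with
  | zero => intro s; simp [Pm]
  | succ d ih =>
    intro s
    rw [show d + 1 + e = (d + e) + 1 by ring, Pm, Pm, ih, mul_assoc,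
      show s + 1 + d = s + (d + 1) by ring]

theorem Pm_blocks (M : ℕ → Matrix W W R) (m B : ℕ) :
    ∀ j, Pm M (j * m) (B * m) = Pm (fun j => Pm M (j * m) m) j B := by
  induction B with
  | zero => intro j; simp [Pm]
  | succ B ih =>
    intro j
    rw [show (B + 1) * m = m + B * m by ring, Pm_add, Pm, show j * m + m = (j + 1) * m by ring, ih]

theorem Pm_one (M : ℕ → Matrix W W R) (n : ℕ) (h : ∀ s, n ≤ s → M s = 1) (d : ℕ) :
    ∀ s, n ≤ s → Pm M s d = 1 := by
  induction d with
  | zero => intro s _; rfl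
  | succ d ih => intro s hs; rw [Pm, h s hs, ih _ (by omega), mul_one]

theorem Pm_apply (M : ℕ → Matrix W W R) (d : ℕ) : ∀ (s : ℕ) (a b : W),
    Pm M s d a b = ∑ v ∈ univ.filter (fun v : Fin (d + 1) → W => v 0 = a ∧ v (Fin.last d) = b),
      ∏ t : Fin d, M (s + t) (v t.castSucc) (v t.succ) := by
  induction d with
  | zero =>
    intro s a b
    rw [Finset.sum_filter, Finset.sum_eq_single (fun _ => a)]
    · simp [Pm, Matrix.one_apply]
    · intro p _ hp
      rw [if_neg]
      intro h0
      apply hp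
      ext i
      rw [Fin.fin_one_eq_zero i, h0.1]
    · simp
  | succ d ih =>
    intro s a b
    rw [Finset.sum_filter, ← (Fin.consEquiv (fun _ : Fin (d + 1 + 1) => W)).sum_comp,
      Fintype.sum_prod_type]
    simp only [Fin.consEquiv, Equiv.coe_fn_mk, Fin.cons_zero, Fin.cons_last]
    rw [Finset.sum_eq_single a (fun x _ hx => by simp [hx]) (by simp)]
    rw [Pm, Matrix.mul_apply]
    simp only [ih, Finset.sum_filter, Finset.mul_sum, true_and]
    rw [Finset.sum_comm]
    refine Finset.sum_congr rfl fun p _ => ?_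
    rw [Finset.sum_eq_single (p 0) (fun x _ hx => by simp [Ne.symm hx]) (by simp)]
    simp only [true_and, mul_ite, mul_zero]
    split_ifs
    · rw [Fin.prod_univ_succ]
      simp only [Fin.castSucc_zero, Fin.cons_zero, Fin.cons_succ, Fin.val_zero, add_zero,
        Fin.val_succ]
      congr 1
      refine Finset.prod_congr rfl fun t _ => ?_
      rw [← Fin.succ_castSucc, Fin.cons_succ, show s + (↑t + 1) = s + 1 + t by ring]
    · rfl

end paths

variable (K : Type) [Field K] (n m B : ℕ)

def lf (s : ℕ) (a b : Fin n) : (Fin n × Fin n × Fin n) ⊕ K :=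
  if h : s < n then Sum.inl (⟨s, h⟩, a, b) else Sum.inr (if a = b then 1 else 0)

noncomputable def MX (s : ℕ) : Matrix (Fin n) (Fin n) (MvPolynomial (Fin n × Fin n × Fin n) K) :=
  fun a b => Sum.elim X C (lf K n s a b)

noncomputable def e0 := Fintype.equivFin (Fin B × Fin m × Fin n × Fin n)
noncomputable def e2 := Fintype.equivFin (Fin B × (Fin (m + 1) → Fin n))
noncomputable def e3 := Fintype.equivFin (Fin B × Fin n × Fin n)
noncomputable def e4 := Fintype.equivFin (Fin (B + 1) → Fin n)

noncomputable abbrev circ : Circuit K (Fin n × Fin n × Fin n) where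
  n0 := Fintype.card (Fin B × Fin m × Fin n × Fin n)
  n1 := Fintype.card (Fin B × Fin m × Fin n × Fin n)
  n2 := Fintype.card (Fin B × (Fin (m + 1) → Fin n))
  n3 := Fintype.card (Fin B × Fin n × Fin n)
  n4 := Fintype.card (Fin (B + 1) → Fin n)
  leaf i := lf K n (((e0 n m B).symm i).1 * m + ((e0 n m B).symm i).2.1)
    ((e0 n m B).symm i).2.2.1 ((e0 n m B).symm i).2.2.2
  in1 g := {g}
  c1 _ _ := 1
  in2 g := (univ : Finset (Fin m)).val.map fun r => e0 n m B
    (((e2 n m B).symm g).1, r, ((e2 n m B).symm g).2 r.castSucc, ((e2 n m B).symm g).2 r.succ)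
  in3 g := (univ.filter (fun p : Fin (m + 1) → Fin n => p 0 = ((e3 n B).symm g).2.1 ∧
    p (Fin.last m) = ((e3 n B).symm g).2.2)).image fun p => e2 n m B (((e3 n B).symm g).1, p)
  c3 _ _ := 1
  in4 g := (univ : Finset (Fin B)).val.map fun j => e3 n B
    (j, (e4 n B).symm g j.castSucc, (e4 n B).symm g j.succ)
  in5 := (univ.filter (fun q : Fin (B + 1) → Fin n => (q 0).val = 0 ∧
    (q (Fin.last B)).val = 0)).image (e4 n B)
  c5 _ := 1

theorem circ_val1 (x : Fin B × Fin m × Fin n × Fin n) :
    (circ K n m B).val1 (e0 n m B x) = MX K n (x.1 * m + x.2.1) x.2.2.1 x.2.2.2 := by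
  simp [Circuit.val1, Circuit.val0, circ, MX]

theorem circ_val2 (j : Fin B) (p : Fin (m + 1) → Fin n) :
    (circ K n m B).val2 (e2 n m B (j, p)) =
      ∏ r : Fin m, MX K n (j * m + r) (p r.castSucc) (p r.succ) := by
  unfold Circuit.val2
  dsimp only
  rw [Multiset.map_map, Finset.prod_eq_multiset_prod]
  congr 1
  refine Multiset.map_congr rfl fun r _ => ?_
  simp only [Function.comp, Equiv.symm_apply_apply]
  exact circ_val1 K n m B _

theorem circ_val3 (j : Fin B) (a b : Fin n) :
    (circ K n m B).val3 (e3 n B (j, a, b)) = Pm (MX K n) (j * m) m a b := by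
  rw [Pm_apply]
  unfold Circuit.val3
  change ∑ i ∈ Finset.image _ _, (1 : K) • _ = _
  rw [Finset.sum_image (fun p _ p' _ h => by simpa using h)]
  simp only [Equiv.symm_apply_apply, one_smul]
  exact Finset.sum_congr rfl fun p _ => circ_val2 K n m B j p

theorem circ_val4 (q : Fin (B + 1) → Fin n) :
    (circ K n m B).val4 (e4 n B q) =
      ∏ j : Fin B, Pm (MX K n) (j * m) m (q j.castSucc) (q j.succ) := by
  unfold Circuit.val4
  dsimp only
  rw [Multiset.map_map, Finset.prod_eq_multiset_prod]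
  congr 1
  refine Multiset.map_congr rfl fun r _ => ?_
  simp only [Function.comp, Equiv.symm_apply_apply]
  exact circ_val3 K n m B _ _ _

theorem circ_output (hn : 0 < n) (hB : n ≤ B * m) : (circ K n m B).output = IMM K n n := by
  have h1 : (circ K n m B).output = Pm (fun j => Pm (MX K n) (j * m) m) 0 B ⟨0, hn⟩ ⟨0, hn⟩ := by
    rw [Circuit.output, Pm_apply]
    change ∑ i ∈ Finset.image _ _, (1 : K) • _ = _
    rw [Finset.sum_image (fun p _ p' _ h => by simpa using h)]
    simp only [one_smul, zero_add, Fin.ext_iff]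
    exact Finset.sum_congr rfl fun q _ => circ_val4 K n m B q
  obtain ⟨e, he⟩ := Nat.exists_eq_add_of_le hB
  rw [h1, ← Pm_blocks, he, Pm_add, Pm_one (MX K n) n _ e _ (by omega), mul_one, Pm_apply, IMM]
  · simp only [Fin.ext_iff, zero_mul, zero_add]
    refine Finset.sum_congr rfl fun v _ => Finset.prod_congr rfl fun t _ => ?_
    simp [MX, lf]
  · intro s hs
    ext a b : 2
    simp only [MX, lf, dif_neg (not_lt.2 hs), Sum.elim_inr, Matrix.one_apply]
    split_ifs <;> simp

theorem circ_deg2 (j : Fin B) (p : Fin (m + 1) → Fin n) :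
    (circ K n m B).deg2 (e2 n m B (j, p)) = ∑ r : Fin m, if j * m + r < n then 1 else 0 := by
  unfold Circuit.deg2
  dsimp only
  rw [Multiset.map_map, Finset.sum_eq_multiset_sum]
  congr 1
  refine Multiset.map_congr rfl fun r _ => ?_
  simp only [Function.comp, Equiv.symm_apply_apply, Circuit.deg1, Circuit.deg0, circ,
    Finset.sup_singleton, lf]
  split_ifs <;> rfl

theorem circ_deg3 (hm : 0 < m) (j : Fin B) (a b : Fin n) :
    (circ K n m B).deg3 (e3 n B (j, a, b)) = ∑ r : Fin m, if j * m + r < n then 1 else 0 := by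
  unfold Circuit.deg3
  apply le_antisymm
  · refine Finset.sup_le fun i hi => ?_
    obtain ⟨p, _, rfl⟩ := mem_image.1 hi
    simp only [Equiv.symm_apply_apply]
    exact (circ_deg2 K n m B j p).le
  · rw [← circ_deg2 K n m B j (fun i => if i = 0 then a else b)]
    refine Finset.le_sup (f := (circ K n m B).deg2) ?_
    refine mem_image.2 ⟨fun i => if i = 0 then a else b, ?_, by simp⟩
    have : Fin.last m ≠ 0 := by
      intro h
      have := congrArg Fin.val h
      simp only [Fin.val_last, Fin.val_zero] at this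
      omega
    simp only [Equiv.symm_apply_apply, mem_filter, mem_univ, true_and, if_true, if_neg this,
      and_self]

theorem circ_homog (hm : 0 < m) : (circ K n m B).Homogeneous := by
  refine ⟨?_, ?_, ?_⟩
  · intro g i hi j hj
    rw [mem_singleton.1 hi, mem_singleton.1 hj]
  · intro g i hi j hj
    obtain ⟨p, _, rfl⟩ := mem_image.1 hi
    obtain ⟨p', _, rfl⟩ := mem_image.1 hj
    rw [circ_deg2, circ_deg2]
  · have key : ∀ q, (circ K n m B).deg4 (e4 n B q) =
        ∑ j : Fin B, ∑ r : Fin m, if j * m + r < n then 1 else 0 := by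
      intro q
      unfold Circuit.deg4
      dsimp only
      rw [Multiset.map_map, Finset.sum_eq_multiset_sum]
      congr 1
      refine Multiset.map_congr rfl fun r _ => ?_
      simp only [Function.comp, Equiv.symm_apply_apply]
      exact circ_deg3 K n m B hm _ _ _
    intro i hi j hj
    obtain ⟨p, _, rfl⟩ := mem_image.1 hi
    obtain ⟨p', _, rfl⟩ := mem_image.1 hj
    rw [key, key]

theorem circ_size : (circ K n m B).size =
    B * (m * (n * n)) + B * (m * (n * n)) + B * n ^ (m + 1) + B * (n * n) + n ^ (B + 1) + 1 := by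
  simp [Circuit.size, circ]

theorem upper_bound (hn : 9 ≤ n) : ∃ G : Circuit K (Fin n × Fin n × Fin n),
    G.Homogeneous ∧ G.output = IMM K n n ∧ G.size ≤ n ^ (3 * Nat.sqrt n) := by
  set y := Nat.sqrt n with hy
  have h3 : 3 ≤ y := Nat.le_sqrt.2 hn
  have h1 : y * y ≤ n := Nat.sqrt_le n
  have h2 : n < (y + 1) * (y + 1) := Nat.lt_succ_sqrt n
  refine ⟨circ K n y (y + 2), circ_homog K n y _ (by omega),
    circ_output K n y _ (by omega) (by nlinarith), ?_⟩
  rw [circ_size]
  have hn1 : 1 ≤ n := by omega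
  have a1 : y + 2 ≤ n := by nlinarith
  have a2 : y ≤ n := by omega
  have b0 : n ^ 4 ≤ n ^ (y + 3) := Nat.pow_le_pow_right hn1 (by omega)
  have b1 : (y + 2) * (y * (n * n)) ≤ n ^ (y + 3) := by
    calc _ ≤ n * (n * (n * n)) := by gcongr
      _ = n ^ 4 := by ring
      _ ≤ _ := b0
  have b2 : (y + 2) * n ^ (y + 1) ≤ n ^ (y + 3) := by
    calc _ ≤ n * n ^ (y + 1) := by gcongr
      _ = n ^ (y + 2) := by ring
      _ ≤ _ := Nat.pow_le_pow_right hn1 (by omega)
  have b3 : (y + 2) * (n * n) ≤ n ^ (y + 3) := by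
    calc _ ≤ n * (n * n) := by gcongr
      _ = n ^ 3 := by ring
      _ ≤ _ := Nat.pow_le_pow_right hn1 (by omega)
  have b4 : 1 ≤ n ^ (y + 3) := Nat.one_le_pow _ _ hn1
  calc _ ≤ 6 * n ^ (y + 3) := by rw [show y + 2 + 1 = y + 3 by ring]; omega
    _ ≤ n * n ^ (y + 3) := by gcongr; omega
    _ = n ^ (y + 4) := by ring
    _ ≤ _ := Nat.pow_le_pow_right hn1 (by omega)

end Vale.Agent.P346
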